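/-
Row 152, module CL (Clapham), helper322.  R.E.-REPRESENTABLE SUBSETS OF A FINITELY GENERATED GROUP.
`Rep gen S`: there is an r.e. language of words over the generators `gen` all of whose words evaluate into `S` and which
contains a word for EVERY element of `S`.  All later files of CL only use the closure properties below, never words.
-/
import Claimed.Agent.R152.RE.Closure

set_option autoImplicit false

namespace Claimed.Agent.R152.CL

open Claimed.Agent.R152.RE
open scoped Pointwise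

/-- Words over `n` generators and their inverses (same type as `Word` of the frozen definitions). -/
abbrev Wd (n : ℕ) := List (Fin n × Bool)

variable {Γ : Type*} [Group Γ] {n : ℕ}

/-- Evaluation of a word (same formula as `evalWord` of the frozen definitions). -/
def ev (gen : Fin n → Γ) (w : Wd n) : Γ :=
  (w.map fun l => if l.2 then gen l.1 else (gen l.1)⁻¹).prod

@[simp] theorem ev_nil (gen : Fin n → Γ) : ev gen [] = 1 := rfl

theorem ev_cons (gen : Fin n → Γ) (l : Fin n × Bool) (w : Wd n) :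
    ev gen (l :: w) = (if l.2 then gen l.1 else (gen l.1)⁻¹) * ev gen w := by
  simp [ev]

theorem ev_append (gen : Fin n → Γ) (u v : Wd n) : ev gen (u ++ v) = ev gen u * ev gen v := by
  simp [ev]

/-- `FreeGroup.invRev` is the formal inverse. Induction on `w` with `ev_append`, `ev_cons`. -/
theorem ev_invRev (gen : Fin n → Γ) (w : Wd n) : ev gen (FreeGroup.invRev w) = (ev gen w)⁻¹ := by
  induction w with
  | nil => simp [FreeGroup.invRev]
  | cons l w ih =>
    have h : FreeGroup.invRev (l :: w) = FreeGroup.invRev w ++ [(l.1, !l.2)] := by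
      simp [FreeGroup.invRev]
    rw [h, ev_append, ih, ev_cons, ev_cons, ev_nil, mul_one, mul_inv_rev]
    congr 1
    cases l.2 <;> simp

/-- Every element of a group generated by `gen` is the value of a word (`Subgroup.closure_induction`, `ev_append`,
`ev_invRev`). -/
theorem exists_ev {gen : Fin n → Γ} (hgen : Subgroup.closure (Set.range gen) = ⊤) (x : Γ) :
    ∃ w, ev gen w = x := by
  have hx : x ∈ Subgroup.closure (Set.range gen) := by rw [hgen]; trivial
  induction hx using Subgroup.closure_induction with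
  | mem y hy =>
    obtain ⟨i, rfl⟩ := hy
    exact ⟨[(i, true)], by simp [ev]⟩
  | one => exact ⟨[], rfl⟩
  | mul a b _ _ ha hb =>
    obtain ⟨u, rfl⟩ := ha
    obtain ⟨v, rfl⟩ := hb
    exact ⟨u ++ v, ev_append gen u v⟩
  | inv a _ ha =>
    obtain ⟨u, rfl⟩ := ha
    exact ⟨FreeGroup.invRev u, ev_invRev gen u⟩

/-- `S` is r.e.-representable over the generators `gen`. -/
def Rep (gen : Fin n → Γ) (S : Set Γ) : Prop :=
  ∃ Λ : Unit → Wd n → Prop, RELang Λ ∧ (∀ w, Λ () w → ev gen w ∈ S) ∧ ∀ x ∈ S, ∃ w, Λ () w ∧ ev gen w = x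

namespace Rep

variable {gen : Fin n → Γ} {S T : Set Γ}

theorem empty : Rep gen (∅ : Set Γ) :=
  ⟨fun _ _ => False, RELang.empty, fun _ h => h.elim, fun _ h => h.elim⟩

/-- `RELang.univ` and `exists_ev`. -/
theorem univ (hgen : Subgroup.closure (Set.range gen) = ⊤) : Rep gen (Set.univ : Set Γ) :=
  ⟨fun _ _ => True, RELang.univ, fun _ _ => trivial, fun x _ => by
    obtain ⟨w, hw⟩ := exists_ev hgen x
    exact ⟨w, trivial, hw⟩⟩

/-- `RELang.singleton` for a word of `x` (`exists_ev`). -/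
theorem singleton (hgen : Subgroup.closure (Set.range gen) = ⊤) (x : Γ) : Rep gen ({x} : Set Γ) := by
  obtain ⟨w₀, hw₀⟩ := exists_ev hgen x
  refine ⟨fun _ w => w = w₀, RELang.singleton (g := fun _ : Unit => w₀) (Computable.const w₀), ?_, ?_⟩
  · intro w hw
    rw [hw, hw₀]
    rfl
  · intro y hy
    exact ⟨w₀, rfl, by rw [hw₀]; exact hy.symm⟩

/-- `RELang.union`. -/
theorem union (hS : Rep gen S) (hT : Rep gen T) : Rep gen (S ∪ T) := by
  obtain ⟨Λ, hΛ, h1, h2⟩ := hS
  obtain ⟨Λ', hΛ', h1', h2'⟩ := hT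
  refine ⟨fun p w => Λ p w ∨ Λ' p w, hΛ.union hΛ', ?_, ?_⟩
  · rintro w (hw | hw)
    · exact Or.inl (h1 w hw)
    · exact Or.inr (h1' w hw)
  · rintro x (hx | hx)
    · obtain ⟨w, hw, e⟩ := h2 x hx
      exact ⟨w, Or.inl hw, e⟩
    · obtain ⟨w, hw, e⟩ := h2' x hx
      exact ⟨w, Or.inr hw, e⟩

/-- `RELang.concat` and `ev_append`. -/
theorem mul (hS : Rep gen S) (hT : Rep gen T) : Rep gen (S * T) := by
  obtain ⟨Λ, hΛ, h1, h2⟩ := hS
  obtain ⟨Λ', hΛ', h1', h2'⟩ := hT
  refine ⟨fun p w => ∃ u v, Λ p u ∧ Λ' p v ∧ w = u ++ v, hΛ.concat hΛ', ?_, ?_⟩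
  · rintro w ⟨u, v, hu, hv, rfl⟩
    rw [ev_append]
    exact Set.mul_mem_mul (h1 u hu) (h1' v hv)
  · intro x hx
    obtain ⟨a, ha, b, hb, rfl⟩ := Set.mem_mul.1 hx
    obtain ⟨u, hu, rfl⟩ := h2 a ha
    obtain ⟨v, hv, rfl⟩ := h2' b hb
    exact ⟨u ++ v, ⟨u, v, hu, hv, rfl⟩, ev_append gen u v⟩

/-- `RELang.image'` with the computable map `FreeGroup.invRev` (`A.primrec_invRev`) and `ev_invRev`. -/
theorem inv (hS : Rep gen S) : Rep gen S⁻¹ := by
  obtain ⟨Λ, hΛ, h1, h2⟩ := hS
  refine ⟨fun p w => ∃ u, Λ p u ∧ w = FreeGroup.invRev u,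
    hΛ.image' (f := fun _ u => FreeGroup.invRev u)
      ((Claimed.Agent.R152.A.primrec_invRev (m := n)).to_comp.comp Computable.snd), ?_, ?_⟩
  · rintro w ⟨u, hu, rfl⟩
    rw [ev_invRev, Set.mem_inv, inv_inv]
    exact h1 u hu
  · intro x hx
    obtain ⟨u, hu, e⟩ := h2 x⁻¹ (Set.mem_inv.1 hx)
    exact ⟨FreeGroup.invRev u, ⟨u, hu, rfl⟩, by rw [ev_invRev, e, inv_inv]⟩

end Rep

end Claimed.Agent.R152.CL
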