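/-
Row 152, module CL (Clapham), helper322.  Representable sets: the two atomic word problems (free groups, the given group).
-/
import Claimed.Agent.R152.CL.Rep
import Claimed.Agent.R152.A.Comp

set_option autoImplicit false

namespace Claimed.Agent.R152.CL

open Claimed.Agent.R152.RE
open scoped Pointwise

variable {Γ : Type*} [Group Γ] {n : ℕ}

/-- The free group: `ev FreeGroup.of w = FreeGroup.mk w`, and `mk w ≠ 1 ↔ FreeGroup.reduce w ≠ []`, a `PrimrecPred`
(`A.primrec_reduce`, `RE.re_of_primrecPred`, `RE.re_comp` with `Computable.snd`). -/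
theorem RepBase_ev_of (m : ℕ) (w : Wd m) :
    ev (fun i : Fin m => (FreeGroup.of i : FreeGroup (Fin m))) w = FreeGroup.mk w := by
  induction w with
  | nil => rfl
  | cons l w ih =>
    rw [ev_cons, ih]
    obtain ⟨i, b⟩ := l
    cases b
    · show (FreeGroup.of i)⁻¹ * FreeGroup.mk w = FreeGroup.mk ((i, false) :: w)
      rw [FreeGroup.of, FreeGroup.inv_mk, FreeGroup.mul_mk]
      rfl
    · show FreeGroup.of i * FreeGroup.mk w = FreeGroup.mk ((i, true) :: w)
      rw [FreeGroup.of, FreeGroup.mul_mk]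
      rfl

theorem RepBase_mk_ne_one_iff (m : ℕ) (w : Wd m) :
    (FreeGroup.mk w : FreeGroup (Fin m)) ≠ 1 ↔ FreeGroup.reduce w ≠ [] := by
  rw [Ne, Ne, ← FreeGroup.toWord_eq_nil_iff, FreeGroup.toWord_mk]

theorem rep_freeGroup_ne_one (m : ℕ) :
    Rep (fun i : Fin m => (FreeGroup.of i : FreeGroup (Fin m))) {x | x ≠ 1} := by
  refine ⟨fun _ w => FreeGroup.reduce w ≠ [], ?_, ?_, ?_⟩
  · have h1 : PrimrecPred fun w : Wd m => FreeGroup.reduce w ≠ [] :=
      PrimrecPred.not (Primrec.eq.comp A.primrec_reduce (Primrec.const []))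
    exact re_comp (re_of_primrecPred h1) Computable.snd
  · intro w hw
    show ev _ w ≠ 1
    rw [RepBase_ev_of]
    exact (RepBase_mk_ne_one_iff m w).2 hw
  · intro x hx
    refine ⟨x.toWord, ?_, ?_⟩
    · have : (FreeGroup.mk x.toWord : FreeGroup (Fin m)) ≠ 1 := by
        rw [FreeGroup.mk_toWord]; exact hx
      exact (RepBase_mk_ne_one_iff m _).1 this
    · rw [RepBase_ev_of, FreeGroup.mk_toWord]

theorem freeGroup_gen_top (m : ℕ) :
    Subgroup.closure (Set.range (fun i : Fin m => (FreeGroup.of i : FreeGroup (Fin m)))) = ⊤ :=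
  FreeGroup.closure_range_of (Fin m)

/-- A group with decidable word problem: the language `{w | ev g w ≠ 1}` is r.e. (`ComputablePred.not`,
`ComputablePred.to_re`, `RE.re_comp`) and contains all words of all nontrivial elements (`exists_ev`). -/
theorem rep_ne_one_of_computable {g : Fin n → Γ} (hg : Subgroup.closure (Set.range g) = ⊤)
    (hWP : ComputablePred fun w : Wd n => ev g w = 1) : Rep g {x | x ≠ 1} := by
  refine ⟨fun _ w => ev g w ≠ 1, ?_, fun w hw => hw, ?_⟩
  · exact re_comp (hWP.not.to_re) Computable.snd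
  · intro x hx
    obtain ⟨w, hw⟩ := exists_ev hg x
    exact ⟨w, by show ev g w ≠ 1; rw [hw]; exact hx, hw⟩

end Claimed.Agent.R152.CL
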