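/-
Row 152, module CL (Clapham), helper322.  Representable sets: finite right-linear systems, finitely generated subgroups.
-/
import Claimed.Agent.R152.CL.Rep

set_option autoImplicit false

namespace Claimed.Agent.R152.CL

open Claimed.Agent.R152.RE
open scoped Pointwise

variable {Γ : Type*} [Group Γ] {n : ℕ}

namespace Rep

variable {gen : Fin n → Γ} {S T : Set Γ}

/-- FINITE RIGHT-LINEAR SYSTEMS. The least family `X i` with `A i ⊆ X i` and `M i j * X j ⊆ X i`. -/
inductive Lin {N : ℕ} (A : Fin N → Set Γ) (M : Fin N → Fin N → Set Γ) : Fin N → Γ → Prop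
  | base {i : Fin N} {x : Γ} (h : x ∈ A i) : Lin A M i x
  | step {i j : Fin N} {m x : Γ} (hm : m ∈ M i j) (hx : Lin A M j x) : Lin A M i (m * x)

/-- The solutions of a finite right-linear system over representable sets are representable.
Proof. Let `ΛA i`, `ΛM i j` be languages for `A i`, `M i j`. Grammar (`RE.Gram`) with sorts `i` (`i < N`) for the
unknowns, `N + i` for `A i`, `2 N + N i + j` for `M i j`; `sub = [(i, N + i)]`, `cat = [(i, 2N + N i + j, j)]`,
`mor = []`, `th = fun a => [a]`; base languages = the list of the `ΛA i`, `ΛM i j` (`RE.der_relang`).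
Soundness: induction on `Der` (a word derived in sort `i < N` evaluates into `Lin A M i`, one derived in the sort of `A i`,
`M i j` lies in `ΛA i`, `ΛM i j`; no rule has these sorts as conclusion). Completeness: induction on `Lin`. -/
theorem lin {N : ℕ} {A : Fin N → Set Γ} {M : Fin N → Fin N → Set Γ} (hA : ∀ i, Rep gen (A i))
    (hM : ∀ i j, Rep gen (M i j)) (i : Fin N) : Rep gen {x | Lin A M i x} := by
  classical
  choose ΛA hAre hAs hAc using hA
  choose ΛM hMre hMs hMc using hM
  let G : Gram (Fin N ⊕ (Fin N ⊕ (Fin N × Fin N))) (Fin n × Bool) :=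
    { cat := (List.finRange N).flatMap fun i => (List.finRange N).map fun j =>
        (Sum.inl i, Sum.inr (Sum.inr (i, j)), Sum.inl j)
      sub := (List.finRange N).map fun i => (Sum.inl i, Sum.inr (Sum.inl i))
      mor := []
      th := fun a => [a] }
  have hth : Primrec G.th := Primrec.list_cons.comp Primrec.id (Primrec.const [])
  let Ls : List ((Fin N ⊕ (Fin N ⊕ (Fin N × Fin N))) × (Unit → Wd n → Prop)) :=
    ((List.finRange N).map fun i => (Sum.inr (Sum.inl i), ΛA i)) ++
      (List.finRange N).flatMap fun i => (List.finRange N).map fun j =>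
        (Sum.inr (Sum.inr (i, j)), ΛM i j)
  have hLs : ∀ y ∈ Ls, RELang y.2 := by
    intro y hy
    rcases List.mem_append.1 hy with hy | hy
    · obtain ⟨i, -, rfl⟩ := List.mem_map.1 hy
      exact hAre i
    · obtain ⟨i, -, hy⟩ := List.mem_flatMap.1 hy
      obtain ⟨j, -, rfl⟩ := List.mem_map.1 hy
      exact hMre i j
  have hre := der_relang G hth Ls hLs (Sum.inl i)
  -- soundness
  have sound : ∀ (s : Fin N ⊕ (Fin N ⊕ (Fin N × Fin N))) (w : Wd n),
      Der G (fun p i w => ∃ y ∈ Ls, y.1 = i ∧ y.2 p w) () s w →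
        (∀ i, s = Sum.inl i → Lin A M i (ev gen w)) ∧
        (∀ i, s = Sum.inr (Sum.inl i) → ΛA i () w) ∧
        (∀ i j, s = Sum.inr (Sum.inr (i, j)) → ΛM i j () w) := by
    intro s w h
    induction h with
    | @base s w h =>
      obtain ⟨y, hy, rfl, hw⟩ := h
      rcases List.mem_append.1 hy with hy | hy
      · obtain ⟨i, -, rfl⟩ := List.mem_map.1 hy
        refine ⟨fun k hk => by simp at hk, fun k hk => ?_, fun k l hk => by simp at hk⟩
        have : i = k := by simpa using hk
        subst this
        exact hw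
      · obtain ⟨i, -, hy⟩ := List.mem_flatMap.1 hy
        obtain ⟨j, -, rfl⟩ := List.mem_map.1 hy
        refine ⟨fun k hk => by simp at hk, fun k hk => by simp at hk, fun k l hk => ?_⟩
        have : i = k ∧ j = l := by simpa using hk
        obtain ⟨rfl, rfl⟩ := this
        exact hw
    | @cat s a b u v h _ _ ihu ihv =>
      obtain ⟨i, -, h⟩ := List.mem_flatMap.1 h
      obtain ⟨j, -, h⟩ := List.mem_map.1 h
      have h1 : s = Sum.inl i := (congrArg Prod.fst h).symm
      have h2 : a = Sum.inr (Sum.inr (i, j)) := (congrArg (fun t => t.2.1) h).symm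
      have h3 : b = Sum.inl j := (congrArg (fun t => t.2.2) h).symm
      subst h1 h2 h3
      refine ⟨fun k hk => ?_, fun k hk => by simp at hk, fun k l hk => by simp at hk⟩
      have : i = k := by simpa using hk
      subst this
      rw [ev_append]
      exact Lin.step (hMs i j u (ihu.2.2 i j rfl)) (ihv.1 j rfl)
    | @sub s a u h _ ihu =>
      obtain ⟨i, -, h⟩ := List.mem_map.1 h
      have h1 : s = Sum.inl i := (congrArg Prod.fst h).symm
      have h2 : a = Sum.inr (Sum.inl i) := (congrArg Prod.snd h).symm
      subst h1 h2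
      refine ⟨fun k hk => ?_, fun k hk => by simp at hk, fun k l hk => by simp at hk⟩
      have : i = k := by simpa using hk
      subst this
      exact Lin.base (hAs i u (ihu.2.1 i rfl))
    | @mor s a u h _ _ => exact absurd h (by simp [G])
  -- completeness
  have complete : ∀ (i : Fin N) (x : Γ), Lin A M i x →
      ∃ w, Der G (fun p i w => ∃ y ∈ Ls, y.1 = i ∧ y.2 p w) () (Sum.inl i) w ∧ ev gen w = x := by
    intro i x h
    induction h with
    | @base i x h =>
      obtain ⟨w, hw, hx⟩ := hAc i x h
      refine ⟨w, Der.sub (a := Sum.inr (Sum.inl i)) ?_ (Der.base ⟨(Sum.inr (Sum.inl i), ΛA i), ?_, rfl, hw⟩), hx⟩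
      · exact List.mem_map.2 ⟨i, List.mem_finRange i, rfl⟩
      · exact List.mem_append_left _ (List.mem_map.2 ⟨i, List.mem_finRange i, rfl⟩)
    | @step i j m x hm _ ih =>
      obtain ⟨v, hv, hx⟩ := ih
      obtain ⟨u, hu, hmu⟩ := hMc i j m hm
      refine ⟨u ++ v, Der.cat (a := Sum.inr (Sum.inr (i, j))) (b := Sum.inl j) ?_
        (Der.base ⟨(Sum.inr (Sum.inr (i, j)), ΛM i j), ?_, rfl, hu⟩) hv, ?_⟩
      · exact List.mem_flatMap.2 ⟨i, List.mem_finRange i, List.mem_map.2 ⟨j, List.mem_finRange j, rfl⟩⟩
      · exact List.mem_append_right _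
          (List.mem_flatMap.2 ⟨i, List.mem_finRange i, List.mem_map.2 ⟨j, List.mem_finRange j, rfl⟩⟩)
      · rw [ev_append, hmu, hx]
  exact ⟨_, hre, fun w hw => (sound _ w hw).1 i rfl, fun x hx => complete i x hx⟩

/-- A finitely generated subgroup is representable. Let `s₁..s_r` generate `U`. One unknown, `A 0 = {1}`,
`M 0 0 = {s₁,..,s_r,s₁⁻¹,..,s_r⁻¹}` (finite union of `singleton`s); `Lin A M 0 = U` (`Subgroup.closure_induction_left`
resp. induction on `Lin`). -/
theorem of_fg (hgen : Subgroup.closure (Set.range gen) = ⊤) (U : Subgroup Γ) (hU : U.FG) :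
    Rep gen (U : Set Γ) := by
  classical
  obtain ⟨S, rfl⟩ := hU
  have hfin : ∀ F : Finset Γ, Rep gen (↑F : Set Γ) := by
    intro F
    induction F using Finset.induction_on with
    | empty => simpa using (Rep.empty (gen := gen))
    | insert a s _ ih =>
      rw [Finset.coe_insert, Set.insert_eq]
      exact (Rep.singleton hgen a).union ih
  have hM : Rep gen ((↑S : Set Γ) ∪ (↑S : Set Γ)⁻¹) := (hfin S).union (hfin S).inv
  have key := Rep.lin (gen := gen) (N := 1) (A := fun _ => ({1} : Set Γ))
    (M := fun _ _ => (↑S : Set Γ) ∪ (↑S : Set Γ)⁻¹) (fun _ => Rep.singleton hgen 1) (fun _ _ => hM) 0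
  have heq : {x | Lin (fun _ : Fin 1 => ({1} : Set Γ)) (fun _ _ => (↑S : Set Γ) ∪ (↑S : Set Γ)⁻¹) 0 x}
      = ((Subgroup.closure (↑S : Set Γ) : Subgroup Γ) : Set Γ) := by
    ext x
    constructor
    · intro h
      have gen' : ∀ (i : Fin 1) (x : Γ),
          Lin (fun _ : Fin 1 => ({1} : Set Γ)) (fun _ _ => (↑S : Set Γ) ∪ (↑S : Set Γ)⁻¹) i x →
            x ∈ Subgroup.closure (↑S : Set Γ) := by
        intro i x h'
        induction h' with
        | base h =>
          rw [Set.mem_singleton_iff.1 h]
          exact one_mem _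
        | step hm _ ih =>
          refine mul_mem ?_ ih
          rcases hm with hm | hm
          · exact Subgroup.subset_closure hm
          · have := Subgroup.subset_closure (k := (↑S : Set Γ)) (Set.mem_inv.1 hm)
            simpa using inv_mem this
      exact gen' 0 x h
    · intro h
      have h' : x ∈ Subgroup.closure (↑S : Set Γ) := h
      clear h
      show Lin _ _ 0 x
      induction h' using Subgroup.closure_induction_left with
      | one => exact Lin.base rfl
      | mul_left y hy z _ ih => exact Lin.step (j := 0) (Or.inl hy) ih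
      | inv_mul_cancel y hy z _ ih => exact Lin.step (j := 0) (Or.inr (by simpa using hy)) ih
  rw [← heq]
  exact key

end Rep

end Claimed.Agent.R152.CL
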