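/-
Row 152, module CL (Clapham), helper322.  Representable sets: images under homomorphisms, products.
-/
import Claimed.Agent.R152.CL.Rep

set_option autoImplicit false

namespace Claimed.Agent.R152.CL

open Claimed.Agent.R152.RE
open scoped Pointwise

variable {Γ : Type*} [Group Γ] {n : ℕ}

namespace Rep

variable {gen : Fin n → Γ} {S T : Set Γ}

/-- IMAGE UNDER A HOMOMORPHISM. Choose words `σ i` over `gen'` with `ev gen' (σ i) = f (gen i)` (`exists_ev`), put
`s l = if l.2 then σ l.1 else FreeGroup.invRev (σ l.1)`; then `ev gen' (w.flatMap s) = f (ev gen w)` (induction on `w`).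
Use `RELang.image` (`s` is `Primrec` because its domain is finite: `Primrec.dom_finite`/`Primrec.dom_fintype`). -/
theorem map {Γ' : Type*} [Group Γ'] {n' : ℕ} {gen' : Fin n' → Γ'}
    (hgen' : Subgroup.closure (Set.range gen') = ⊤) (f : Γ →* Γ') (hS : Rep gen S) :
    Rep gen' (f '' S) := by
  classical
  obtain ⟨Λ, hΛ, hsound, hcompl⟩ := hS
  choose σ hσ using fun i => exists_ev hgen' (f (gen i))
  set s : Fin n × Bool → Wd n' := fun l => if l.2 then σ l.1 else FreeGroup.invRev (σ l.1) with hs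
  have hev : ∀ w : Wd n, ev gen' (w.flatMap s) = f (ev gen w) := by
    intro w
    induction w with
    | nil => simp
    | cons l w ih =>
      rw [List.flatMap_cons, ev_append, ih, ev_cons, map_mul]
      congr 1
      rcases l with ⟨i, b⟩
      cases b
      · simp [hs, ev_invRev, hσ]
      · simp [hs, hσ]
  have hprim : Primrec₂ (fun (_ : Unit) (l : Fin n × Bool) => s l) :=
    (Primrec.dom_finite s).comp Primrec.snd
  refine ⟨fun p w => ∃ u, Λ p u ∧ w = u.flatMap s, RELang.image hΛ hprim, ?_, ?_⟩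
  · rintro w ⟨u, hu, rfl⟩
    exact ⟨ev gen u, hsound u hu, (hev u).symm⟩
  · rintro _ ⟨x, hx, rfl⟩
    obtain ⟨u, hu, rfl⟩ := hcompl x hx
    exact ⟨u.flatMap s, ⟨u, hu, rfl⟩, hev u⟩

end Rep

/-- Generators of a product. -/
def genProd {H Y : Type*} [Group H] [Group Y] {a b : ℕ} (gH : Fin a → H) (gY : Fin b → Y) :
    Fin (a + b) → H × Y :=
  Fin.append (fun i => (gH i, 1)) (fun j => (1, gY j))

/-- `closure (range genProd) = ⊤`: `(h,y) = (h,1) (1,y)`, map the closures by `MonoidHom.inl`, `MonoidHom.inr`. -/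
theorem genProd_top {H Y : Type*} [Group H] [Group Y] {a b : ℕ} {gH : Fin a → H} {gY : Fin b → Y}
    (hH : Subgroup.closure (Set.range gH) = ⊤) (hY : Subgroup.closure (Set.range gY) = ⊤) :
    Subgroup.closure (Set.range (genProd gH gY)) = ⊤ := by
  rw [eq_top_iff]
  have h1 : ∀ h : H, ((h, 1) : H × Y) ∈ Subgroup.closure (Set.range (genProd gH gY)) := by
    intro h
    have hle : Subgroup.closure (Set.range gH) ≤
        (Subgroup.closure (Set.range (genProd gH gY))).comap (MonoidHom.inl H Y) := by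
      rw [Subgroup.closure_le]
      rintro _ ⟨i, rfl⟩
      refine Subgroup.subset_closure ⟨Fin.castAdd b i, ?_⟩
      simp [genProd]
    have := hle (hH ▸ Subgroup.mem_top h)
    simpa using this
  have h2 : ∀ y : Y, ((1, y) : H × Y) ∈ Subgroup.closure (Set.range (genProd gH gY)) := by
    intro y
    have hle : Subgroup.closure (Set.range gY) ≤
        (Subgroup.closure (Set.range (genProd gH gY))).comap (MonoidHom.inr H Y) := by
      rw [Subgroup.closure_le]
      rintro _ ⟨j, rfl⟩
      refine Subgroup.subset_closure ⟨Fin.natAdd a j, ?_⟩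
      simp [genProd]
    have := hle (hY ▸ Subgroup.mem_top y)
    simpa using this
  rintro ⟨h, y⟩ -
  have := Subgroup.mul_mem _ (h1 h) (h2 y)
  simpa using this

/-- `S ×ˢ T = inl '' S * inr '' T`; `Rep.map` twice and `Rep.mul`. -/
theorem Rep.prod {H Y : Type*} [Group H] [Group Y] {a b : ℕ} {gH : Fin a → H} {gY : Fin b → Y}
    (hH : Subgroup.closure (Set.range gH) = ⊤) (hY : Subgroup.closure (Set.range gY) = ⊤)
    {S : Set H} {T : Set Y} (hS : Rep gH S) (hT : Rep gY T) : Rep (genProd gH gY) (S ×ˢ T) := by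
  have htop := genProd_top hH hY
  have h1 := Rep.map htop (MonoidHom.inl H Y) hS
  have h2 := Rep.map htop (MonoidHom.inr H Y) hT
  have h3 := Rep.mul h1 h2
  have heq : S ×ˢ T = (MonoidHom.inl H Y) '' S * (MonoidHom.inr H Y) '' T := by
    ext ⟨h, y⟩
    constructor
    · rintro ⟨hh, hy⟩
      exact Set.mem_mul.2 ⟨(h, 1), ⟨h, hh, rfl⟩, (1, y), ⟨y, hy, rfl⟩, by simp⟩
    · intro hmem
      obtain ⟨_, ⟨h', hh', rfl⟩, _, ⟨y', hy', rfl⟩, he⟩ := Set.mem_mul.1 hmem
      simp only [MonoidHom.inl_apply, MonoidHom.inr_apply, Prod.mk_mul_mk, mul_one, one_mul,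
        Prod.mk.injEq] at he
      obtain ⟨rfl, rfl⟩ := he
      exact ⟨hh', hy'⟩
  rw [heq]
  exact h3

end Claimed.Agent.R152.CL
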