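/-
Row 152, module CL (Clapham), helper322.  ONE STABLE LETTER: the nontrivial elements of an HNN extension are representable.
`HNN1 G A B φ = ⟨G, s | s a s⁻¹ = φ a (a ∈ A)⟩` is helper22's `MHNN` with index type `Unit`.
-/
import Claimed.Agent.R152.CL.RepMap
import Claimed.Agent.R152.CL.RepLin
import Claimed.Agent.R152.CL.RepBase
import Claimed.Agent.R152.H.MHNNSub

set_option autoImplicit false

namespace Claimed.Agent.R152.CL

open Claimed.Agent.R152.H Claimed.Agent.R152.RE
open HNNExtension (toSubgroup toSubgroupEquiv)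
open scoped Pointwise

variable {G : Type*} [Group G]

/-- HNN extension with one stable letter. -/
abbrev HNN1 (G : Type*) [Group G] (A B : Subgroup G) (φ : A ≃* B) : Type _ :=
  MHNN G (fun _ : Unit => A) (fun _ : Unit => B) (fun _ : Unit => φ)

variable {A B : Subgroup G} {φ : A ≃* B}

/-- `Tail u x`: `x = s^u g₁ s^{u₂} g₂ ⋯ s^{u_r} g_r` without pinch (`r ≥ 1`, `u₁ = u`). -/
inductive Tail : ℤˣ → HNN1 G A B φ → Prop
  | last (u : ℤˣ) (g : G) : Tail u (MHNN.t () ^ (u : ℤ) * MHNN.of g)
  | cons (u u' : ℤˣ) (g : G) (x : HNN1 G A B φ) (h : u' = -u → g ∉ toSubgroup A B u)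
      (hx : Tail u' x) : Tail u (MHNN.t () ^ (u : ℤ) * MHNN.of g * x)

/-- Tails are the products of the reduced words `1 · s^u · w`.
`→`: induction on `Tail` (`last`: `w = ofGroup g`; `cons`: `w = cons g () u' w' _`, the side condition of the outer `cons` is
`h`: if `g ∈ toSubgroup u` then `u' ≠ -u`, hence `u = u'` (`Int.units_eq_one_or`)). `←`: induction on the length of `w.toList`
with `ReducedWord.cases_cons`. -/
theorem tail_iff (u : ℤˣ) (x : HNN1 G A B φ) :
    Tail u x ↔ ∃ (w : MHNN.NormalWord.ReducedWord G (fun _ : Unit => A) (fun _ : Unit => B))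
      (h : ∀ p ∈ Option.map Prod.fst w.toList.head?,
        w.head ∈ toSubgroup A B u → () = p.1 → u = p.2),
      MHNN.NormalWord.ReducedWord.prod (fun _ : Unit => φ) (MHNN.ReducedWord.cons 1 () u w h) = x := by
  constructor
  · intro hx
    induction hx with
    | last u g =>
      refine ⟨MHNN.ReducedWord.ofGroup g, ?_, ?_⟩
      · intro p hp
        simp at hp
      · rw [MHNN.ReducedWord.prod_cons, MHNN.ReducedWord.prod_ofGroup, map_one, one_mul]
    | cons u u' g x h hx ih =>
      obtain ⟨w', h', hw'⟩ := ih
      refine ⟨MHNN.ReducedWord.cons g () u' w' h', ?_, ?_⟩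
      · intro p hp hg _
        simp only [MHNN.ReducedWord.cons_toList, List.head?_cons, Option.map_some,
          Option.mem_def, Option.some.injEq] at hp
        subst hp
        simp only [MHNN.ReducedWord.cons_head] at hg
        by_contra hne
        have hu' : u' = -u := by
          have := Int.units_ne_iff_eq_neg.mp hne
          rw [this, neg_neg]
        exact h hu' hg
      · rw [MHNN.ReducedWord.prod_cons, MHNN.ReducedWord.prod_cons, map_one, one_mul, ← hw',
          MHNN.ReducedWord.prod_cons, map_one, one_mul, mul_assoc]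
  · rintro ⟨w, h, rfl⟩
    have key : ∀ (n : ℕ) (w : MHNN.NormalWord.ReducedWord G (fun _ : Unit => A) (fun _ : Unit => B)),
        w.toList.length = n → ∀ (u : ℤˣ)
        (h : ∀ p ∈ Option.map Prod.fst w.toList.head?,
          w.head ∈ toSubgroup A B u → () = p.1 → u = p.2),
        Tail (φ := φ) u (MHNN.NormalWord.ReducedWord.prod (fun _ : Unit => φ)
          (MHNN.ReducedWord.cons 1 () u w h)) := by
      intro n
      induction n with
      | zero =>
        intro w hn u h
        rcases MHNN.ReducedWord.cases_cons w with ⟨g, rfl⟩ | ⟨g, i, u', w', h', rfl⟩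
        · rw [MHNN.ReducedWord.prod_cons, MHNN.ReducedWord.prod_ofGroup, map_one, one_mul]
          exact Tail.last u g
        · simp at hn
      | succ n ih =>
        intro w hn u h
        rcases MHNN.ReducedWord.cases_cons w with ⟨g, rfl⟩ | ⟨g, i, u', w', h', rfl⟩
        · simp at hn
        · cases i
          have hlen : w'.toList.length = n := by
            simpa using hn
          have hx := ih w' hlen u' h'
          have hcond : u' = -u → g ∉ toSubgroup A B u := by
            intro hu' hg
            have h1 : u = u' := h ((), u') (by simp) (by simpa using hg) rfl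
            rw [hu'] at h1
            rcases Int.units_eq_one_or u with rfl | rfl
            · exact absurd h1 (by decide)
            · exact absurd h1 (by decide)
          have := Tail.cons u u' g _ hcond hx
          rw [MHNN.ReducedWord.prod_cons, map_one, one_mul] at this
          rw [MHNN.ReducedWord.prod_cons, MHNN.ReducedWord.prod_cons, map_one, one_mul]
          rw [mul_assoc] at this
          exact this
    exact key _ w rfl u h

/-- BRITTON. `exists_reducedWord`, `cases_cons`, `prod_eq_one_iff`, `tail_iff`. -/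
theorem ne_one_iff (x : HNN1 G A B φ) :
    x ≠ 1 ↔ (∃ g : G, g ≠ 1 ∧ x = MHNN.of g) ∨ ∃ (g : G) (u : ℤˣ) (y : HNN1 G A B φ),
      Tail u y ∧ x = MHNN.of g * y := by
  constructor
  · intro hx
    obtain ⟨w, rfl⟩ := MHNN.exists_reducedWord x
    rcases MHNN.ReducedWord.cases_cons w with ⟨g, rfl⟩ | ⟨g, i, u, w', h', rfl⟩
    · left
      refine ⟨g, ?_, MHNN.ReducedWord.prod_ofGroup _ g⟩
      rintro rfl
      apply hx
      rw [MHNN.ReducedWord.prod_ofGroup, map_one]
    · right
      cases i
      refine ⟨g, u, _, (tail_iff u _).2 ⟨w', h', rfl⟩, ?_⟩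
      rw [MHNN.ReducedWord.prod_cons, MHNN.ReducedWord.prod_cons, map_one, one_mul]
  · rintro (⟨g, hg, rfl⟩ | ⟨g, u, y, hy, rfl⟩)
    · intro h
      apply hg
      apply MHNN.of_injective (φ := fun _ : Unit => φ)
      rw [h, map_one]
    · obtain ⟨w, h, rfl⟩ := (tail_iff u y).1 hy
      intro h1
      have h2 : MHNN.NormalWord.ReducedWord.prod (fun _ : Unit => φ)
          (MHNN.ReducedWord.cons g () u w h) = 1 := by
        rw [MHNN.ReducedWord.prod_cons]
        rw [MHNN.ReducedWord.prod_cons, map_one, one_mul] at h1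
        exact h1
      have h3 := ((MHNN.ReducedWord.prod_eq_one_iff _ _).1 h2).2
      simp at h3

/-- Generators of the HNN extension: the stable letter first. -/
def genExt {n : ℕ} (gen : Fin n → G) : Fin (n + 1) → HNN1 G A B φ :=
  Fin.cases (MHNN.t ()) (fun i => MHNN.of (gen i))

/-- `MHNN.closure_of_t`; `range of = map of ⊤ = map of (closure (range gen))`. -/
theorem genExt_top {n : ℕ} {gen : Fin n → G} (hgen : Subgroup.closure (Set.range gen) = ⊤) :
    Subgroup.closure (Set.range (genExt (A := A) (B := B) (φ := φ) gen)) = ⊤ := by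
  rw [eq_top_iff, ← MHNN.closure_of_t, Subgroup.closure_le]
  rintro x (⟨g, rfl⟩ | ⟨i, rfl⟩)
  · have hg : g ∈ Subgroup.closure (Set.range gen) := by rw [hgen]; trivial
    have hmap : (Subgroup.closure (Set.range gen)).map
        (MHNN.of : G →* HNN1 G A B φ) ≤
        Subgroup.closure (Set.range (genExt (A := A) (B := B) (φ := φ) gen)) := by
      rw [MonoidHom.map_closure, Subgroup.closure_le]
      rintro _ ⟨_, ⟨j, rfl⟩, rfl⟩
      exact Subgroup.subset_closure ⟨j.succ, rfl⟩
    exact hmap ⟨g, hg, rfl⟩
  · cases i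
    exact Subgroup.subset_closure ⟨0, rfl⟩

end Claimed.Agent.R152.CL
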