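/-
Row 152, module CL (Clapham), helper322.  ONE STABLE LETTER: tails and nontrivial elements are representable.
-/
import Claimed.Agent.R152.CL.Tail

set_option autoImplicit false

namespace Claimed.Agent.R152.CL

open Claimed.Agent.R152.H Claimed.Agent.R152.RE
open HNNExtension (toSubgroup toSubgroupEquiv)
open scoped Pointwise

variable {G : Type*} [Group G] {A B : Subgroup G} {φ : A ≃* B}

/-- index ↦ sign. -/
def tlUn (i : Fin 2) : ℤˣ := if i = 0 then 1 else -1

/-- sign ↦ index. -/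
def tlIdx (u : ℤˣ) : Fin 2 := if u = 1 then 0 else 1

theorem tlUn_tlIdx (u : ℤˣ) : tlUn (tlIdx u) = u := by
  rcases Int.units_eq_one_or u with rfl | rfl
  · rfl
  · rfl

/-- the constant terms of the right-linear system of the tails. -/
def tlA (A B : Subgroup G) (φ : A ≃* B) (i : Fin 2) : Set (HNN1 G A B φ) :=
  {MHNN.t () ^ (tlUn i : ℤ)} * (MHNN.of '' (Set.univ : Set G))

/-- the coefficients of the right-linear system of the tails. -/
def tlM (A B : Subgroup G) (φ : A ≃* B) (i j : Fin 2) : Set (HNN1 G A B φ) :=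
  {MHNN.t () ^ (tlUn i : ℤ)} * (MHNN.of '' {g : G | tlUn j = -tlUn i → g ∉ toSubgroup A B (tlUn i)})

theorem tl_lin_tail (i : Fin 2) (x : HNN1 G A B φ) (h : Rep.Lin (tlA A B φ) (tlM A B φ) i x) :
    Tail (tlUn i) x := by
  induction h with
  | base h =>
    obtain ⟨a, ha, b, ⟨g, -, rfl⟩, rfl⟩ := Set.mem_mul.1 h
    rw [Set.mem_singleton_iff.1 ha]
    exact Tail.last _ g
  | step hm _ ih =>
    obtain ⟨a, ha, b, ⟨g, hg, rfl⟩, rfl⟩ := Set.mem_mul.1 hm
    rw [Set.mem_singleton_iff.1 ha]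
    exact Tail.cons _ _ g _ hg ih

theorem tl_tail_lin (u : ℤˣ) (x : HNN1 G A B φ) (h : Tail u x) :
    Rep.Lin (tlA A B φ) (tlM A B φ) (tlIdx u) x := by
  induction h with
  | last u g =>
    refine Rep.Lin.base (Set.mem_mul.2 ⟨_, Set.mem_singleton _, _, ⟨g, trivial, rfl⟩, ?_⟩)
    rw [tlUn_tlIdx]
  | cons u u' g x h _ ih =>
    refine Rep.Lin.step (j := tlIdx u')
      (Set.mem_mul.2 ⟨_, Set.mem_singleton _, _, ⟨g, ?_, rfl⟩, ?_⟩) ih
    · show tlUn (tlIdx u') = -tlUn (tlIdx u) → g ∉ toSubgroup A B (tlUn (tlIdx u))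
      rw [tlUn_tlIdx, tlUn_tlIdx]
      exact h
    · rw [tlUn_tlIdx]

/-- The tails are representable. `Rep.lin` with `N = 2` (`0 ↔ u = 1`, `1 ↔ u = -1`),
`A_u = {s^u} * of '' univ`, `M_{u,u'} = {s^u} * of '' (if u' = -u then (toSubgroup u)ᶜ else univ)`
(`Rep.singleton`, `Rep.map MHNN.of`, `Rep.mul`, `Rep.univ`); `toSubgroup A B 1 = A`, `toSubgroup A B (-1) = B`.
`Lin _ _ u = Tail u` by two inductions. -/
theorem rep_tail {n : ℕ} {gen : Fin n → G} (hgen : Subgroup.closure (Set.range gen) = ⊤)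
    (hA : Rep gen {g | g ∉ A}) (hB : Rep gen {g | g ∉ B}) (u : ℤˣ) :
    Rep (genExt (A := A) (B := B) (φ := φ) gen) {x | Tail u x} := by
  have hgen' := genExt_top (A := A) (B := B) (φ := φ) hgen
  have hsub : ∀ v : ℤˣ, Rep gen {g : G | g ∉ toSubgroup A B v} := by
    intro v
    rcases Int.units_eq_one_or v with rfl | rfl
    · exact hA
    · exact hB
  have hAA : ∀ i, Rep (genExt (A := A) (B := B) (φ := φ) gen) (tlA A B φ i) := fun i =>
    (Rep.singleton hgen' _).mul (Rep.map hgen' MHNN.of (Rep.univ hgen))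
  have hMM : ∀ i j, Rep (genExt (A := A) (B := B) (φ := φ) gen) (tlM A B φ i j) := by
    intro i j
    refine (Rep.singleton hgen' _).mul (Rep.map (gen := gen) hgen' MHNN.of ?_)
    by_cases h : tlUn j = -tlUn i
    · have e : {g : G | tlUn j = -tlUn i → g ∉ toSubgroup A B (tlUn i)}
          = {g : G | g ∉ toSubgroup A B (tlUn i)} := by
        ext g
        exact ⟨fun hg => hg h, fun hg _ => hg⟩
      rw [e]
      exact hsub _
    · have e : {g : G | tlUn j = -tlUn i → g ∉ toSubgroup A B (tlUn i)} = Set.univ := by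
        ext g
        exact ⟨fun _ => trivial, fun _ h' => absurd h' h⟩
      rw [e]
      exact Rep.univ hgen
  have key := Rep.lin hAA hMM (tlIdx u)
  have e : {x | Tail (A := A) (B := B) (φ := φ) u x}
      = {x | Rep.Lin (tlA A B φ) (tlM A B φ) (tlIdx u) x} := by
    ext x
    constructor
    · exact tl_tail_lin u x
    · intro h
      have := tl_lin_tail _ x h
      rwa [tlUn_tlIdx] at this
  rw [e]
  exact key

/-- The nontrivial elements are representable: by `ne_one_iff`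
`{x ≠ 1} = of '' {g ≠ 1} ∪ of '' univ * Tail 1 ∪ of '' univ * Tail (-1)`. -/
theorem rep_ne_one {n : ℕ} {gen : Fin n → G} (hgen : Subgroup.closure (Set.range gen) = ⊤)
    (h1 : Rep gen {g | g ≠ 1}) (hA : Rep gen {g | g ∉ A}) (hB : Rep gen {g | g ∉ B}) :
    Rep (genExt (A := A) (B := B) (φ := φ) gen) {x | x ≠ 1} := by
  have hgen' := genExt_top (A := A) (B := B) (φ := φ) hgen
  have hU : Rep (genExt (A := A) (B := B) (φ := φ) gen) (MHNN.of '' (Set.univ : Set G)) :=
    Rep.map hgen' MHNN.of (Rep.univ hgen)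
  have h0 : Rep (genExt (A := A) (B := B) (φ := φ) gen) (MHNN.of '' {g : G | g ≠ 1}) :=
    Rep.map hgen' MHNN.of h1
  have key := (h0.union (hU.mul (rep_tail hgen hA hB 1))).union (hU.mul (rep_tail hgen hA hB (-1)))
  have e : {x : HNN1 G A B φ | x ≠ 1}
      = (MHNN.of '' {g : G | g ≠ 1} ∪ MHNN.of '' (Set.univ : Set G) * {x | Tail 1 x})
        ∪ MHNN.of '' (Set.univ : Set G) * {x | Tail (-1) x} := by
    ext x
    show x ≠ 1 ↔ _
    rw [ne_one_iff]
    constructor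
    · rintro (⟨g, hg, rfl⟩ | ⟨g, u, y, hy, rfl⟩)
      · exact Or.inl (Or.inl ⟨g, hg, rfl⟩)
      · rcases Int.units_eq_one_or u with rfl | rfl
        · exact Or.inl (Or.inr (Set.mem_mul.2 ⟨_, ⟨g, trivial, rfl⟩, y, hy, rfl⟩))
        · exact Or.inr (Set.mem_mul.2 ⟨_, ⟨g, trivial, rfl⟩, y, hy, rfl⟩)
    · rintro ((⟨g, hg, rfl⟩ | h) | h)
      · exact Or.inl ⟨g, hg, rfl⟩
      · obtain ⟨a, ⟨g, -, rfl⟩, y, hy, rfl⟩ := Set.mem_mul.1 h
        exact Or.inr ⟨g, 1, y, hy, rfl⟩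
      · obtain ⟨a, ⟨g, -, rfl⟩, y, hy, rfl⟩ := Set.mem_mul.1 h
        exact Or.inr ⟨g, -1, y, hy, rfl⟩
  rw [e]
  exact key

end Claimed.Agent.R152.CL
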