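/-
Row 152, module CL (Clapham), helper322.  GRAPH-TYPE HNN EXTENSIONS.
`Gr P π = ⟨H × Y, d | d (p,1) d⁻¹ = (p, π p)  (p ∈ P)⟩` for `P ≤ H`, `π : P →* Y`.
Used twice: `Q = Gr ⊤ (F_m → G)` over `F_m × G` and `M_G = Gr P₂ ψ` over `S_k × Q`.
-/
import Claimed.Agent.R152.CL.TailRep

set_option autoImplicit false

namespace Claimed.Agent.R152.CL

open Claimed.Agent.R152.H Claimed.Agent.R152.RE
open scoped Pointwise

variable {H Y : Type*} [Group H] [Group Y] (P : Subgroup H) (π : P →* Y)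

/-- `P × 1`. -/
def grA (Y : Type*) [Group Y] : Subgroup (H × Y) := P.prod ⊥

/-- The graph of `π`. -/
def grB : Subgroup (H × Y) := (P.subtype.prod π).range

variable {P}

theorem mem_grA {x : H × Y} : x ∈ grA P Y ↔ x.1 ∈ P ∧ x.2 = 1 := by
  simp [grA, Subgroup.mem_prod]

theorem mem_grB {π : P →* Y} {x : H × Y} : x ∈ grB P π ↔ ∃ h : x.1 ∈ P, x.2 = π ⟨x.1, h⟩ := by
  constructor
  · rintro ⟨p, rfl⟩
    exact ⟨p.2, rfl⟩
  · rintro ⟨h, h2⟩
    exact ⟨⟨x.1, h⟩, Prod.ext rfl h2.symm⟩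

variable (P)

/-- `(p,1) ↦ (p, π p)`. -/
def grφ : grA P Y ≃* grB P π where
  toFun a := ⟨(a.1.1, π ⟨a.1.1, (mem_grA.1 a.2).1⟩), mem_grB.2 ⟨(mem_grA.1 a.2).1, rfl⟩⟩
  invFun b := ⟨(b.1.1, 1), mem_grA.2 ⟨(mem_grB.1 b.2).1, rfl⟩⟩
  left_inv a := by
    ext
    · rfl
    · exact (mem_grA.1 a.2).2.symm
  right_inv b := by
    ext
    · rfl
    · exact (mem_grB.1 b.2).2.symm
  map_mul' a b := by
    ext
    · rfl
    · exact map_mul π ⟨a.1.1, (mem_grA.1 a.2).1⟩ ⟨b.1.1, (mem_grA.1 b.2).1⟩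

/-- The graph-type HNN extension. -/
abbrev Gr : Type _ := HNN1 (H × Y) (grA P Y) (grB P π) (grφ P π)

variable {P π}

/-- The defining relation. (`MHNN.t_mul_of`.) -/
theorem Gr.d_mul (p : P) :
    (MHNN.t () * MHNN.of ((p : H), (1 : Y)) : Gr P π) = MHNN.of ((p : H), π p) * MHNN.t () :=
  MHNN.t_mul_of (φ := fun _ : Unit => grφ P π) () ⟨((p : H), (1 : Y)), mem_grA.2 ⟨p.2, rfl⟩⟩

/-- `grA` is finitely generated if `P` is (image of `P` under `MonoidHom.inl`). -/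
theorem grA_fg (hP : P.FG) : (grA P Y).FG := by
  have e : grA P Y = ((MonoidHom.inl H Y).comp P.subtype).range := by
    ext x
    rw [mem_grA, MonoidHom.mem_range]
    constructor
    · rintro ⟨h1, h2⟩
      exact ⟨⟨x.1, h1⟩, Prod.ext rfl h2.symm⟩
    · rintro ⟨p, rfl⟩
      exact ⟨p.2, rfl⟩
  have : Group.FG P := (Group.fg_iff_subgroup_fg P).2 hP
  rw [e]
  exact (Group.fg_iff_subgroup_fg _).1 (Group.fg_range _)

/-- `grB` is finitely generated if `P` is (range of a homomorphism defined on `P`; `Subgroup.fg_iff_..`, `Group.FG` of `P`,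
`MonoidHom.range` of an f.g. group is f.g.). -/
theorem grB_fg (hP : P.FG) : (grB P π).FG := by
  have : Group.FG P := (Group.fg_iff_subgroup_fg P).2 hP
  exact (Group.fg_iff_subgroup_fg _).1 (Group.fg_range _)

section rep

variable {a b : ℕ} {gH : Fin a → H} {gY : Fin b → Y}

/-- `{x ≠ 1} = {h ≠ 1} ×ˢ univ ∪ univ ×ˢ {y ≠ 1}`. -/
theorem rep_prod_ne_one (hH : Subgroup.closure (Set.range gH) = ⊤)
    (hY : Subgroup.closure (Set.range gY) = ⊤) (h1 : Rep gH {h | h ≠ 1}) (y1 : Rep gY {y | y ≠ 1}) :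
    Rep (genProd gH gY) {x : H × Y | x ≠ 1} := by
  have e : {x : H × Y | x ≠ 1} = {h : H | h ≠ 1} ×ˢ (Set.univ : Set Y) ∪
      (Set.univ : Set H) ×ˢ {y : Y | y ≠ 1} := by
    ext x
    simp only [Set.mem_ofPred_eq, Set.mem_union, Set.mem_prod, Set.mem_univ, and_true, true_and, ne_eq,
      Prod.ext_iff, Prod.fst_one, Prod.snd_one]
    tauto
  rw [e]
  exact (Rep.prod hH hY h1 (Rep.univ hY)).union (Rep.prod hH hY (Rep.univ hH) y1)

/-- `{x ∉ P × 1} = {h ∉ P} ×ˢ univ ∪ univ ×ˢ {y ≠ 1}`. -/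
theorem rep_not_mem_grA (hH : Subgroup.closure (Set.range gH) = ⊤)
    (hY : Subgroup.closure (Set.range gY) = ⊤) (hP : Rep gH {h | h ∉ P}) (y1 : Rep gY {y | y ≠ 1}) :
    Rep (genProd gH gY) {x : H × Y | x ∉ grA P Y} := by
  have e : {x : H × Y | x ∉ grA P Y} = {h : H | h ∉ P} ×ˢ (Set.univ : Set Y) ∪
      (Set.univ : Set H) ×ˢ {y : Y | y ≠ 1} := by
    ext x
    simp only [Set.mem_ofPred_eq, Set.mem_union, Set.mem_prod, Set.mem_univ, and_true, true_and, ne_eq,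
      mem_grA]
    tauto
  rw [e]
  exact (Rep.prod hH hY hP (Rep.univ hY)).union (Rep.prod hH hY (Rep.univ hH) y1)

/-- `{x ∉ graph} = {h ∉ P} ×ˢ univ ∪ ({1} ×ˢ {y ≠ 1}) * graph`: for `h ∈ P`, `y ≠ π h`:
`(h,y) = (1, y (π h)⁻¹) (h, π h)`; conversely `(1,y') (p, π p) = (p, y' π p)` is not in the graph for `y' ≠ 1`.
The graph is representable by `Rep.of_fg` and `grB_fg`. -/
theorem rep_not_mem_grB (hH : Subgroup.closure (Set.range gH) = ⊤)
    (hY : Subgroup.closure (Set.range gY) = ⊤) (hPfg : P.FG) (hP : Rep gH {h | h ∉ P})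
    (y1 : Rep gY {y | y ≠ 1}) :
    Rep (genProd gH gY) {x : H × Y | x ∉ grB P π} := by
  have e : {x : H × Y | x ∉ grB P π} = {h : H | h ∉ P} ×ˢ (Set.univ : Set Y) ∪
      (({1} : Set H) ×ˢ {y : Y | y ≠ 1}) * (grB P π : Set (H × Y)) := by
    ext x
    constructor
    · intro hx
      by_cases hp : x.1 ∈ P
      · right
        refine Set.mem_mul.2 ⟨(1, x.2 * (π ⟨x.1, hp⟩)⁻¹), ⟨rfl, ?_⟩, (x.1, π ⟨x.1, hp⟩),
          mem_grB.2 ⟨hp, rfl⟩, ?_⟩
        · intro h0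
          exact hx (mem_grB.2 ⟨hp, mul_inv_eq_one.1 h0⟩)
        · exact Prod.ext (one_mul _) (inv_mul_cancel_right _ _)
      · left
        exact ⟨hp, trivial⟩
    · rintro (⟨hp, -⟩ | hx) hmem
      · exact hp (mem_grB.1 hmem).1
      · obtain ⟨c, ⟨hc1, hc2⟩, g, hg, rfl⟩ := Set.mem_mul.1 hx
        obtain ⟨hgp, hg2⟩ := mem_grB.1 hg
        obtain ⟨hq, hq2⟩ := mem_grB.1 hmem
        have hc1' : c.1 = 1 := hc1
        have e1 : (⟨(c * g).1, hq⟩ : P) = ⟨g.1, hgp⟩ := by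
          apply Subtype.ext
          show c.1 * g.1 = g.1
          rw [hc1', one_mul]
        rw [e1, ← hg2] at hq2
        have hq3 : c.2 * g.2 = g.2 := hq2
        exact hc2 (mul_eq_right.1 hq3)
  rw [e]
  exact (Rep.prod hH hY hP (Rep.univ hY)).union
    ((Rep.prod hH hY (Rep.singleton hH 1) y1).mul
      (Rep.of_fg (genProd_top hH hY) (grB P π) (grB_fg hPfg)))

/-- The nontrivial elements of `Gr P π` are representable (`rep_ne_one` of `Tail.lean` and the three lemmas above). -/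
theorem Gr.rep_ne_one (hH : Subgroup.closure (Set.range gH) = ⊤)
    (hY : Subgroup.closure (Set.range gY) = ⊤) (hPfg : P.FG) (h1 : Rep gH {h | h ≠ 1})
    (hP : Rep gH {h | h ∉ P}) (y1 : Rep gY {y | y ≠ 1}) :
    Rep (genExt (A := grA P Y) (B := grB P π) (φ := grφ P π) (genProd gH gY)) {x | x ≠ 1} :=
  CL.rep_ne_one (genProd_top hH hY) (rep_prod_ne_one hH hY h1 y1) (rep_not_mem_grA hH hY hP y1)
    (rep_not_mem_grB hH hY hPfg hP y1)

end rep

end Claimed.Agent.R152.CL
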