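/-
Row 152, module CL (Clapham), helper322.  THE GROUP `Q`.
`G = ⟨g₁..g_m⟩`.  `Q = ⟨F_m × G, h | h v h⁻¹ = v · ḡ(v)  (v ∈ F_m)⟩`, `ḡ : F_m → G`, `vᵢ ↦ gᵢ` (a graph-type HNN extension;
it is helper22's `(G * ⟨h⟩) ⋊ F_m`).  KEY IDENTITY: `v⁻¹ h v = ḡ(v) h`, so conjugating `h` MULTIPLIES it by the value of the word.
-/
import Claimed.Agent.R152.CL.Gr

set_option autoImplicit false

namespace Claimed.Agent.R152.CL

open Claimed.Agent.R152.H Claimed.Agent.R152.RE

variable {G : Type*} [Group G] {m : ℕ} (g : Fin m → G)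

/-- `ḡ` on `⊤ ≤ F_m`. -/
def piG : (⊤ : Subgroup (FreeGroup (Fin m))) →* G :=
  (FreeGroup.lift g).comp (Subgroup.subtype ⊤)

/-- The group `Q`. -/
abbrev QG : Type _ := Gr (⊤ : Subgroup (FreeGroup (Fin m))) (piG g)

namespace QG

/-- `F_m → Q`. -/
def V : FreeGroup (Fin m) →* QG g := MHNN.of.comp (MonoidHom.inl _ _)

/-- `G → Q`. -/
def Gam : G →* QG g := MHNN.of.comp (MonoidHom.inr _ _)

/-- The stable letter. -/
def hh : QG g := MHNN.t ()

/-- `MHNN.of_injective`. -/
theorem Gam_injective : Function.Injective (Gam g) := by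
  intro x y h
  have h1 : ((1 : FreeGroup (Fin m)), x) = ((1 : FreeGroup (Fin m)), y) := MHNN.of_injective h
  exact (Prod.ext_iff.1 h1).2

/-- `V` and `Gam` commute (they come from the two factors of a product). -/
theorem V_mul_Gam (f : FreeGroup (Fin m)) (x : G) : V g f * Gam g x = Gam g x * V g f := by
  show (MHNN.of (f, (1 : G)) * MHNN.of ((1 : FreeGroup (Fin m)), x) : QG g)
    = MHNN.of ((1 : FreeGroup (Fin m)), x) * MHNN.of (f, (1 : G))
  rw [← map_mul, ← map_mul]
  simp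

/-- `Gr.d_mul` for `p = ⟨f, trivial⟩`; `(f, ḡ f) = (f,1) (1, ḡ f)`. -/
theorem hh_mul_V (f : FreeGroup (Fin m)) :
    hh g * V g f = V g f * Gam g (FreeGroup.lift g f) * hh g := by
  have h := Gr.d_mul (π := piG g) (⟨f, trivial⟩ : (⊤ : Subgroup (FreeGroup (Fin m))))
  show (MHNN.t () * MHNN.of (f, (1 : G)) : QG g)
    = MHNN.of (f, (1 : G)) * MHNN.of ((1 : FreeGroup (Fin m)), FreeGroup.lift g f) * MHNN.t ()
  rw [← map_mul]
  have h2 : ((f, (1 : G)) * ((1 : FreeGroup (Fin m)), FreeGroup.lift g f) : FreeGroup (Fin m) × G)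
      = (f, FreeGroup.lift g f) := by simp
  rw [h2]
  exact h

/-- KEY IDENTITY (`hh_mul_V`). -/
theorem conj_hh (f : FreeGroup (Fin m)) :
    (V g f)⁻¹ * hh g * V g f = Gam g (FreeGroup.lift g f) * hh g := by
  rw [mul_assoc, hh_mul_V, mul_assoc, inv_mul_cancel_left]

/-- Generators `h, v₁..v_m, g₁..g_m`. -/
def gen : Fin (m + m + 1) → QG g :=
  genExt (genProd (fun i : Fin m => (FreeGroup.of i : FreeGroup (Fin m))) g)

theorem gen_top (hg : Subgroup.closure (Set.range g) = ⊤) :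
    Subgroup.closure (Set.range (gen g)) = ⊤ :=
  genExt_top (genProd_top (freeGroup_gen_top m) hg)

/-- The word problem of `Q`. `Gr.rep_ne_one` with `rep_freeGroup_ne_one`, `{f ∉ ⊤} = ∅` (`Rep.empty`), `⊤` f.g.
(`Group.FG` of the free group of finite rank), `rep_ne_one_of_computable`. -/
theorem rep_ne_one (hg : Subgroup.closure (Set.range g) = ⊤)
    (hWP : ComputablePred fun w : Wd m => ev g w = 1) : Rep (gen g) {x | x ≠ 1} := by
  have hfg : (⊤ : Subgroup (FreeGroup (Fin m))).FG := (Group.fg_def).1 inferInstance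
  have hemp : Rep (fun i : Fin m => (FreeGroup.of i : FreeGroup (Fin m)))
      {h | h ∉ (⊤ : Subgroup (FreeGroup (Fin m)))} := by
    have : {h | h ∉ (⊤ : Subgroup (FreeGroup (Fin m)))} = (∅ : Set (FreeGroup (Fin m))) := by
      ext h
      simp
    rw [this]
    exact Rep.empty
  exact Gr.rep_ne_one (π := piG g) (freeGroup_gen_top m) hg hfg (rep_freeGroup_ne_one m) hemp
    (rep_ne_one_of_computable hg hWP)

end QG

/-- The alphabet of the hardware: letters `(i, true) ↔ gᵢ`, `(i, false) ↔ gᵢ⁻¹`, and `none ↔ j`. -/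
abbrev Alp (m : ℕ) := Option (Fin m × Bool)

/-- The positive word `w` in `FreeGroup (Alp m)`. -/
def wd (w : Wd m) : FreeGroup (Alp m) := (w.map fun l => FreeGroup.of (some l)).prod

/-- The element `w⁻¹ j w`. -/
def cj (w : Wd m) : FreeGroup (Alp m) := (wd w)⁻¹ * FreeGroup.of none * wd w

/-- `β₁ : l ↦ v_l^{±1}, j ↦ h`. -/
def beta1 : FreeGroup (Alp m) →* QG g :=
  FreeGroup.lift fun o => match o with
    | none => QG.hh g
    | some l => if l.2 then QG.V g (FreeGroup.of l.1) else (QG.V g (FreeGroup.of l.1))⁻¹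

/-- `β₂ : l ↦ 1, j ↦ h`. -/
def beta2 : FreeGroup (Alp m) →* QG g :=
  FreeGroup.lift fun o => match o with
    | none => QG.hh g
    | some _ => 1

/-- Induction on `w`. -/
theorem beta1_wd (w : Wd m) : beta1 g (wd w) = QG.V g (FreeGroup.mk w) := by
  induction w with
  | nil =>
    show beta1 g 1 = QG.V g 1
    rw [map_one, map_one]
  | cons l w ih =>
    have h1 : wd (l :: w) = FreeGroup.of (some l) * wd w := by simp [wd]
    have h2 : (FreeGroup.mk (l :: w) : FreeGroup (Fin m)) = FreeGroup.mk [l] * FreeGroup.mk w := by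
      rw [FreeGroup.mul_mk]
      rfl
    rw [h1, h2, map_mul, map_mul, ih]
    congr 1
    obtain ⟨i, b⟩ := l
    cases b
    · have h3 : (FreeGroup.mk [(i, false)] : FreeGroup (Fin m)) = (FreeGroup.of i)⁻¹ := by
        rw [FreeGroup.of, FreeGroup.inv_mk]
        rfl
      rw [h3, map_inv]
      simp [beta1]
    · simp [beta1, FreeGroup.of]

/-- Induction on `w`. -/
theorem lift_mk (w : Wd m) : FreeGroup.lift g (FreeGroup.mk w) = ev g w := by
  rw [FreeGroup.lift_mk]
  unfold ev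
  congr 1
  refine List.map_congr_left fun l _ => ?_
  cases l.2 <;> rfl

theorem beta2_wd (w : Wd m) : beta2 g (wd w) = 1 := by
  induction w with
  | nil =>
    show beta2 g 1 = 1
    rw [map_one]
  | cons l w ih =>
    have h1 : wd (l :: w) = FreeGroup.of (some l) * wd w := by simp [wd]
    rw [h1, map_mul, ih]
    simp [beta2]

/-- `beta1_wd`, `QG.conj_hh`, `lift_mk`. -/
theorem beta1_cj (w : Wd m) : beta1 g (cj w) = QG.Gam g (ev g w) * QG.hh g := by
  have h : beta1 g (FreeGroup.of none) = QG.hh g := by simp [beta1]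
  unfold cj
  rw [map_mul, map_mul, map_inv, beta1_wd, h, QG.conj_hh, lift_mk]

theorem beta2_cj (w : Wd m) : beta2 g (cj w) = QG.hh g := by
  have h : beta2 g (FreeGroup.of none) = QG.hh g := by simp [beta2]
  unfold cj
  rw [map_mul, map_mul, map_inv, beta2_wd, h]
  simp

end Claimed.Agent.R152.CL
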