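/-
Row 152, module CL (Clapham), helper322.  THE `k`-LEVEL.
`S_k = ⟨H, k | [k, K] = 1⟩`, `P₂ = ⟨P, k P k⁻¹⟩ = P *_{P ∩ K} P`.  Membership of reduced words in `P₂` (two-state absorption),
universal property of `P₂` (transported from helper22's `Semi.exists_lift_subAlt`), and: the complement of `P₂` is representable.
-/
import Claimed.Agent.R152.CL.Gr
import Claimed.Agent.R152.H.Semi

set_option autoImplicit false

namespace Claimed.Agent.R152.CL

open Claimed.Agent.R152.H Claimed.Agent.R152.RE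
open HNNExtension (toSubgroup toSubgroupEquiv)
open scoped Pointwise

variable {H : Type*} [Group H] (K P : Subgroup H)

/-- `⟨H, k | [k,K] = 1⟩`. -/
abbrev Sk : Type _ := HNN1 H K K (MulEquiv.refl K)

/-- The stable letter. -/
def kk : Sk K := MHNN.t ()

/-- `P₂ = ⟨P, k P k⁻¹⟩`. -/
def P2 : Subgroup (Sk K) :=
  Subgroup.closure ((MHNN.of : H → Sk K) '' P ∪ (fun u => kk K * MHNN.of u * (kk K)⁻¹) '' P)

/-- Reduced words of `S_k`. -/
abbrev RW : Type _ := MHNN.NormalWord.ReducedWord H (fun _ : Unit => K) (fun _ : Unit => K)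

/-- The product of a reduced word. -/
abbrev RW.pr {K : Subgroup H} (w : RW K) : Sk K :=
  MHNN.NormalWord.ReducedWord.prod (fun _ : Unit => MulEquiv.refl K) w

variable {K P}

/-- `MHNN.t_mul_of`. -/
theorem kk_mul_of {κ : H} (hκ : κ ∈ K) : kk K * MHNN.of κ = MHNN.of κ * kk K :=
  MHNN.t_mul_of (φ := fun _ : Unit => MulEquiv.refl K) () ⟨κ, hκ⟩

theorem of_mem_P2 {p : H} (hp : p ∈ P) : (MHNN.of p : Sk K) ∈ P2 K P :=
  Subgroup.subset_closure (Or.inl ⟨p, hp, rfl⟩)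

theorem conj_mem_P2 {p : H} (hp : p ∈ P) : kk K * MHNN.of p * (kk K)⁻¹ ∈ P2 K P :=
  Subgroup.subset_closure (Or.inr ⟨p, hp, rfl⟩)

theorem Sk_fp [Group.IsFinitelyPresented H] (hK : K.FG) : Group.IsFinitelyPresented (Sk K) :=
  MHNN.isFinitelyPresented (fun _ => hK)

theorem Sk_fg_map {G G' : Type*} [Group G] [Group G'] {Q : Subgroup G} (h : Q.FG) (f : G →* G') :
    (Q.map f).FG := by
  obtain ⟨S, hS, hfin⟩ := (Subgroup.fg_iff Q).1 h
  exact (Subgroup.fg_iff _).2 ⟨f '' S, by rw [← MonoidHom.map_closure, hS], hfin.image f⟩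

/-- If `S` generates `P` then `of '' S ∪ k (of '' S) k⁻¹` generates `P₂` (both `u ↦ of u` and `u ↦ k of u k⁻¹` are
homomorphisms; `MonoidHom.map_closure`). -/
theorem P2_fg (hP : P.FG) : (P2 K P).FG := by
  have h1 : Subgroup.closure ((MHNN.of : H → Sk K) '' P) = P.map (MHNN.of : H →* Sk K) := by
    have := MonoidHom.map_closure (MHNN.of : H →* Sk K) (P : Set H)
    rw [Subgroup.closure_eq] at this
    exact this.symm
  have h2 : Subgroup.closure ((fun u => kk K * MHNN.of u * (kk K)⁻¹) '' (P : Set H))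
      = P.map ((MulAut.conj (kk K)).toMonoidHom.comp (MHNN.of : H →* Sk K)) := by
    have := MonoidHom.map_closure ((MulAut.conj (kk K)).toMonoidHom.comp (MHNN.of : H →* Sk K))
      (P : Set H)
    rw [Subgroup.closure_eq] at this
    exact this.symm
  unfold P2
  rw [Subgroup.closure_union, h1, h2]
  exact (Sk_fg_map hP _).sup (Sk_fg_map hP _)

/-- UNIVERSAL PROPERTY of `P₂ = P *_{P ∩ K} k P k⁻¹`. Let `e : Semi H K ≃* Sk K` be `Semi.exists_equiv_mhnn`
(`e (inr h) = of h`, `e t = k`). Then `(Semi.SubAlt K P).map e = P2 K P` (`MonoidHom.map_closure`, `Set.image_union`), so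
`x ↦ e.symm x` maps `P2 K P` into `SubAlt K P`; compose with the `F` of `Semi.exists_lift_subAlt`. -/
theorem exists_lift_P2 {M : Type*} [Group M] (f₁ f₂ : P →* M)
    (hf : ∀ (c : H) (hc : c ∈ P), c ∈ K → f₁ ⟨c, hc⟩ = f₂ ⟨c, hc⟩) :
    ∃ F : P2 K P →* M,
      (∀ (u : H) (hu : u ∈ P), F ⟨MHNN.of u, of_mem_P2 hu⟩ = f₁ ⟨u, hu⟩) ∧
      (∀ (u : H) (hu : u ∈ P), F ⟨kk K * MHNN.of u * (kk K)⁻¹, conj_mem_P2 hu⟩ = f₂ ⟨u, hu⟩) := by
  obtain ⟨e, he1, he2⟩ := Semi.exists_equiv_mhnn (H := H) (C := K)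
  obtain ⟨F0, hF1, hF2⟩ := Semi.exists_lift_subAlt (C := K) (U := P) f₁ f₂ hf
  have hs1 : ∀ h : H, e.symm (MHNN.of h) = SemidirectProduct.inr h := fun h => by
    rw [MulEquiv.symm_apply_eq, he1]
  have hs2 : e.symm (kk K) = Semi.t := by
    rw [MulEquiv.symm_apply_eq, he2]; rfl
  have hs3 : ∀ u : H, e.symm (kk K * MHNN.of u * (kk K)⁻¹)
      = Semi.t * SemidirectProduct.inr u * Semi.t⁻¹ := fun u => by
    rw [map_mul, map_mul, map_inv, hs1, hs2]
  have hle : P2 K P ≤ (Semi.SubAlt K P).comap e.symm.toMonoidHom := by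
    unfold P2
    rw [Subgroup.closure_le]
    rintro x (⟨u, hu, rfl⟩ | ⟨u, hu, rfl⟩)
    · show e.symm (MHNN.of u) ∈ Semi.SubAlt K P
      rw [hs1]
      exact Semi.inr_mem_subAlt hu
    · show e.symm (kk K * MHNN.of u * (kk K)⁻¹) ∈ Semi.SubAlt K P
      rw [hs3]
      exact Semi.conj_mem_subAlt hu
  let g : P2 K P →* Semi.SubAlt K P :=
    (e.symm.toMonoidHom.comp (P2 K P).subtype).codRestrict (Semi.SubAlt K P) (fun x => hle x.2)
  refine ⟨F0.comp g, ?_, ?_⟩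
  · intro u hu
    have hg : g ⟨MHNN.of u, of_mem_P2 hu⟩ = ⟨SemidirectProduct.inr u, Semi.inr_mem_subAlt hu⟩ :=
      Subtype.ext (hs1 u)
    rw [MonoidHom.comp_apply, hg, hF1 u hu]
  · intro u hu
    have hg : g ⟨kk K * MHNN.of u * (kk K)⁻¹, conj_mem_P2 hu⟩
        = ⟨Semi.t * SemidirectProduct.inr u * Semi.t⁻¹, Semi.conj_mem_subAlt hu⟩ :=
      Subtype.ext (hs3 u)
    rw [MonoidHom.comp_apply, hg, hF2 u hu]

end Claimed.Agent.R152.CL
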