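/-
Row 152, module CL (Clapham), helper322.  THE `k`-LEVEL: alternating reduced forms of the elements of `P₂`.
-/
import Claimed.Agent.R152.CL.Sk

set_option autoImplicit false

namespace Claimed.Agent.R152.CL

open Claimed.Agent.R152.H Claimed.Agent.R152.RE
open HNNExtension (toSubgroup toSubgroupEquiv)
open scoped Pointwise

variable {H : Type*} [Group H] {K P : Subgroup H}

/-- The sign expected in the state `st` (`false` = outside, `true` = between `k` and `k⁻¹`). -/
def sgn (st : Bool) : ℤˣ := if st then -1 else 1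

/-- The prefix belonging to a state. -/
def pre (K : Subgroup H) (st : Bool) : Sk K := if st then kk K else 1

/-- Alternating sequences `p₀ k p₁ k⁻¹ p₂ k ⋯ k⁻¹ p_{2r}` with all `pᵢ ∈ P`. -/
def AltP (P : Subgroup H) : Bool → H → List ((Unit × ℤˣ) × H) → Prop
  | st, g, [] => st = false ∧ g ∈ P
  | st, g, x :: l => g ∈ P ∧ x.1.2 = sgn st ∧ AltP P (!st) x.2 l

/-- Two-state absorption from the left. -/
def InOut (K P : Subgroup H) : Bool → H → List ((Unit × ℤˣ) × H) → Prop
  | st, g, [] => st = false ∧ g ∈ P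
  | st, g, x :: l => x.1.2 = sgn st ∧ ∃ κ ∈ K, g * κ ∈ P ∧ InOut K P (!st) (κ⁻¹ * x.2) l

/-- Cases on `l`; `p g κ ∈ P ↔ g κ ∈ P`. -/
theorem inOut_mul_left {p : H} (hp : p ∈ P) (st : Bool) (g : H) (l : List ((Unit × ℤˣ) × H)) :
    InOut K P st (p * g) l ↔ InOut K P st g l := by
  cases l with
  | nil =>
    simp only [InOut]
    rw [Subgroup.mul_mem_cancel_left P hp]
  | cons x l =>
    simp only [InOut]
    have e : ∀ κ : H, p * g * κ ∈ P ↔ g * κ ∈ P := fun κ => by
      rw [mul_assoc, Subgroup.mul_mem_cancel_left P hp]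
    simp only [e]

/-- the chain condition of `RW K`. -/
def skaRd (K : Subgroup H) (l : List ((Unit × ℤˣ) × H)) : Prop :=
  l.IsChain (fun a b => a.2 ∈ toSubgroup K K a.1.2 → a.1.1 = b.1.1 → a.1.2 = b.1.2)

/-- the product of the letters. -/
def skaLp (K : Subgroup H) (l : List ((Unit × ℤˣ) × H)) : Sk K :=
  (l.map (fun x => (MHNN.t x.1.1 : Sk K) ^ (x.1.2 : ℤ) * MHNN.of x.2)).prod

theorem skaLp_cons (x : (Unit × ℤˣ) × H) (l : List ((Unit × ℤˣ) × H)) :
    skaLp K (x :: l) = (kk K) ^ (x.1.2 : ℤ) * MHNN.of x.2 * skaLp K l := by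
  unfold skaLp
  rw [List.map_cons, List.prod_cons]
  rfl

theorem skaLp_nil : skaLp K [] = 1 := rfl

theorem ska_toSubgroup (u : ℤˣ) : toSubgroup K K u = K := by
  unfold HNNExtension.toSubgroup
  split_ifs <;> rfl

theorem skaRd_cons_of_not_mem {x : (Unit × ℤˣ) × H} {l : List ((Unit × ℤˣ) × H)} (hx : x.2 ∉ K)
    (hl : skaRd K l) : skaRd K (x :: l) := by
  unfold skaRd at hl ⊢
  refine List.isChain_cons.2 ⟨?_, hl⟩
  intro y _ hy
  rw [ska_toSubgroup] at hy
  exact absurd hy hx

theorem skaRd_tail {x : (Unit × ℤˣ) × H} {l : List ((Unit × ℤˣ) × H)} (h : skaRd K (x :: l)) :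
    skaRd K l := (List.isChain_cons.1 h).2

theorem altP_mul_left {p : H} (hp : p ∈ P) (st : Bool) (g : H) (l : List ((Unit × ℤˣ) × H))
    (h : AltP P st g l) : AltP P st (p * g) l := by
  cases l with
  | nil => exact ⟨h.1, P.mul_mem hp h.2⟩
  | cons x l => exact ⟨P.mul_mem hp h.1, h.2⟩

/-- the set of the products of reduced alternating sequences. -/
def skaS (K P : Subgroup H) (x : Sk K) : Prop :=
  ∃ (g : H) (l : List ((Unit × ℤˣ) × H)), skaRd K l ∧ AltP P false g l ∧ MHNN.of g * skaLp K l = x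

theorem skaS_one : skaS K P 1 :=
  ⟨1, [], List.isChain_nil, ⟨rfl, P.one_mem⟩, by rw [skaLp_nil, map_one, mul_one]⟩

theorem skaS_of_mul {p : H} (hp : p ∈ P) {x : Sk K} (hx : skaS K P x) : skaS K P (MHNN.of p * x) := by
  obtain ⟨g, l, h1, h2, rfl⟩ := hx
  exact ⟨p * g, l, h1, altP_mul_left hp _ _ _ h2, by rw [map_mul, mul_assoc]⟩

theorem ska_conj_of {κ : H} (hκ : κ ∈ K) : kk K * MHNN.of κ * (kk K)⁻¹ = MHNN.of κ := by
  rw [kk_mul_of hκ, mul_assoc, mul_inv_cancel, mul_one]

theorem ska_conj_of' {κ : H} (hκ : κ ∈ K) : (kk K)⁻¹ * MHNN.of κ * kk K = MHNN.of κ := by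
  rw [mul_assoc, ← kk_mul_of hκ, inv_mul_cancel_left]

theorem skaS_conj_mul {p : H} (hp : p ∈ P) {x : Sk K} (hx : skaS K P x) :
    skaS K P (kk K * MHNN.of p * (kk K)⁻¹ * x) := by
  by_cases hpK : p ∈ K
  · rw [ska_conj_of hpK]
    exact skaS_of_mul hp hx
  obtain ⟨g, l, h1, h2, rfl⟩ := hx
  have z1 : (((1 : ℤˣ) : ℤ)) = 1 := rfl
  have z2 : (((-1 : ℤˣ) : ℤ)) = -1 := rfl
  cases l with
  | nil =>
    refine ⟨1, [(((), 1), p), (((), -1), g)], ?_, ?_, ?_⟩
    · exact skaRd_cons_of_not_mem hpK (List.isChain_singleton _)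
    · exact ⟨P.one_mem, rfl, hp, rfl, rfl, h2.2⟩
    · rw [skaLp_cons, skaLp_cons, skaLp_nil, map_one]
      simp only [z1, z2, zpow_one, zpow_neg]
      group
  | cons x l' =>
    obtain ⟨hg, hx1, h3⟩ := h2
    by_cases hgK : g ∈ K
    · cases l' with
      | nil => exact absurd h3.1 (by simp)
      | cons y l'' =>
        obtain ⟨hx2, hy1, h4⟩ := h3
        have hx1' : ((x.1.2 : ℤˣ) : ℤ) = 1 := by rw [hx1]; rfl
        have hy1' : ((y.1.2 : ℤˣ) : ℤ) = -1 := by rw [hy1]; rfl
        have e0 : kk K * MHNN.of p * (kk K)⁻¹ * (MHNN.of g * skaLp K (x :: y :: l'')) =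
            kk K * MHNN.of (p * g * x.2) * skaLp K (y :: l'') := by
          rw [skaLp_cons x, hx1', zpow_one, map_mul, map_mul]
          have := ska_conj_of' (K := K) hgK
          calc kk K * MHNN.of p * (kk K)⁻¹ * (MHNN.of g * (kk K * MHNN.of x.2 * skaLp K (y :: l'')))
              = kk K * MHNN.of p * ((kk K)⁻¹ * MHNN.of g * kk K) * MHNN.of x.2 * skaLp K (y :: l'') := by
                group
            _ = _ := by rw [this]; group
        by_cases hq : p * g * x.2 ∈ K
        · refine ⟨p * g * x.2 * y.2, l'', skaRd_tail (skaRd_tail h1), ?_, ?_⟩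
          · exact altP_mul_left (P.mul_mem (P.mul_mem hp hg) hx2) _ _ _ h4
          · rw [e0, skaLp_cons y, hy1', zpow_neg, zpow_one, map_mul (MHNN.of) (p * g * x.2) y.2]
            have := ska_conj_of (K := K) hq
            calc MHNN.of (p * g * x.2) * MHNN.of y.2 * skaLp K l''
                = (kk K * MHNN.of (p * g * x.2) * (kk K)⁻¹) * MHNN.of y.2 * skaLp K l'' := by rw [this]
              _ = _ := by group
        · refine ⟨1, (((), 1), p * g * x.2) :: y :: l'', ?_, ?_, ?_⟩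
          · exact skaRd_cons_of_not_mem hq (skaRd_tail h1)
          · exact ⟨P.one_mem, rfl, P.mul_mem (P.mul_mem hp hg) hx2, hy1, h4⟩
          · rw [e0, skaLp_cons (((), 1), p * g * x.2), map_one, one_mul]
            simp only [z1, zpow_one]
    · refine ⟨1, (((), 1), p) :: (((), -1), g) :: x :: l', ?_, ?_, ?_⟩
      · exact skaRd_cons_of_not_mem hpK (skaRd_cons_of_not_mem hgK h1)
      · exact ⟨P.one_mem, rfl, hp, rfl, hg, hx1, h3⟩
      · rw [skaLp_cons (((), 1), p), skaLp_cons (((), -1), g), map_one]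
        simp only [z1, z2, zpow_one, zpow_neg]
        group

/-- (S1) Every element of `P₂` is the product of a REDUCED alternating sequence.
`Subgroup.closure_induction_left`-style induction: the set of such products contains `1` and is stable under left multiplication by
`of p` (`smulBase`) and by `k of p k⁻¹` (`p ∈ P`; the inverses of the generators are again of these forms). For `c = k of p k⁻¹`
and `w = (g, l)`:
* `p ∈ K`: `c = of p`.
* `p ∉ K`, `l = []`: `(1, [(1,p), (-1,g)])`.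
* `p ∉ K`, `l = (1,g') :: l'`, `g ∉ K`: `(1, (1,p) :: (-1,g) :: l)`.
* `p ∉ K`, `l = (1,g') :: l'`, `g ∈ K`: `k⁻¹ g k = g`, and `l' = (-1,g'') :: l''` (state `true` does not allow `[]`).
   If `p g g' ∉ K`: `(1, (1, p g g') :: l')`. If `p g g' ∈ K`: `(p g g' g'', l'')`. -/
theorem exists_alt {x : Sk K} (hx : x ∈ P2 K P) :
    ∃ w : RW K, AltP P false w.head w.toList ∧ w.pr = x := by
  have key : skaS K P x := by
    unfold P2 at hx
    induction hx using Subgroup.closure_induction_left with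
    | one => exact skaS_one
    | mul_left a ha y _ ih =>
      rcases ha with ⟨p, hp, rfl⟩ | ⟨p, hp, rfl⟩
      · exact skaS_of_mul hp ih
      · exact skaS_conj_mul hp ih
    | inv_mul_cancel a ha y _ ih =>
      rcases ha with ⟨p, hp, rfl⟩ | ⟨p, hp, rfl⟩
      · rw [← map_inv]
        exact skaS_of_mul (P.inv_mem hp) ih
      · have e : (kk K * MHNN.of p * (kk K)⁻¹)⁻¹ = kk K * MHNN.of p⁻¹ * (kk K)⁻¹ := by
          rw [map_inv]; group
        simp only [e]
        exact skaS_conj_mul (P.inv_mem hp) ih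
  obtain ⟨g, l, h1, h2, h3⟩ := key
  exact ⟨⟨g, l, h1⟩, h2, h3⟩

end Claimed.Agent.R152.CL
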