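/-
Row 152, module CL (Clapham), helper322.  THE `k`-LEVEL: membership of reduced words in `P₂`.
-/
import Claimed.Agent.R152.CL.SkAlt

set_option autoImplicit false

namespace Claimed.Agent.R152.CL

open Claimed.Agent.R152.H Claimed.Agent.R152.RE
open HNNExtension (toSubgroup toSubgroupEquiv)
open scoped Pointwise

variable {H : Type*} [Group H] {K P : Subgroup H}

theorem SkMem_toSubgroup (u : ℤˣ) : toSubgroup K K u = K := by
  rcases Int.units_eq_one_or u with rfl | rfl <;> rfl

theorem SkMem_equiv (u : ℤˣ) (b : toSubgroup K K u) :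
    (toSubgroupEquiv (MulEquiv.refl K) u b : H) = b := by
  rcases Int.units_eq_one_or u with rfl | rfl <;> rfl

theorem SkMem_step (g g' : H) (u : ℤˣ) (w w' : RW K)
    (h : ∀ p ∈ Option.map Prod.fst w.toList.head?, w.head ∈ toSubgroup K K u → () = p.1 → u = p.2)
    (h' : ∀ p ∈ Option.map Prod.fst w'.toList.head?, w'.head ∈ toSubgroup K K u → () = p.1 → u = p.2)
    (hp : RW.pr (MHNN.ReducedWord.cons g () u w h) = RW.pr (MHNN.ReducedWord.cons g' () u w' h')) :
    ∃ b ∈ K, g' = g * b ∧ w.pr = MHNN.of b * w'.pr := by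
  obtain ⟨b, hb1, hb2⟩ := (MHNN.ReducedWord.cons_prod_eq_cons_prod_iff
    (fun _ : Unit => MulEquiv.refl K) g g' () u w w' h h').1 hp
  refine ⟨b, ?_, hb1, ?_⟩
  · have h1 : ∀ x : H, x ∈ toSubgroup K K (-u) → x ∈ K := by
      intro x hx
      rwa [SkMem_toSubgroup] at hx
    exact h1 _ b.2
  · have e := SkMem_equiv (K := K) (-u) b
    rw [e] at hb2
    exact hb2

/-- (S2) Comparison with an alternating sequence. Induction on `a.toList` (generalising `st`, `w`), with `cases_cons` for both words: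
equal products have the same letters (`map_fst_eq_and_of_prod_eq`), and by `cons_prod_eq_cons_prod_iff` there is `b ∈ K` with
`a.head = w.head * b` and `w'.pr = of b * a'.pr`; take `κ = b` and apply the induction hypothesis to `smulBase b⁻¹ w'` and `a'`. -/
theorem inOut_of_alt (st : Bool) (w a : RW K) (ha : AltP P st a.head a.toList) (h : w.pr = a.pr) :
    InOut K P st w.head w.toList := by
  rcases a with ⟨ga, la, ca⟩
  induction la generalizing st w ga with
  | nil =>
    obtain ⟨hst, hga⟩ := ha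
    have h1 := (MHNN.ReducedWord.map_fst_eq_and_of_prod_eq _ h).1
    have h2 : w.toList = [] := by simpa using h1
    have h3 : w.head = ga := by
      apply MHNN.of_injective (φ := fun _ : Unit => MulEquiv.refl K)
      simpa [RW.pr, MHNN.NormalWord.ReducedWord.prod, h2] using h
    rw [h2, h3]
    exact ⟨hst, hga⟩
  | cons x l ih =>
    obtain ⟨hga, hx, hal⟩ := ha
    have h1 := (MHNN.ReducedWord.map_fst_eq_and_of_prod_eq _ h).1
    rcases w with ⟨gw, lw, cw⟩
    cases lw with
    | nil => simp at h1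
    | cons y lw' =>
      simp only [List.map_cons, List.cons.injEq] at h1
      obtain ⟨⟨⟨⟩, u⟩, xg⟩ := x
      obtain ⟨⟨⟨⟩, u'⟩, yg⟩ := y
      obtain rfl : u' = u := by simpa using h1.1
      have cw' := List.isChain_cons.1 cw
      have ca' := List.isChain_cons.1 ca
      have hw' : ∀ p ∈ Option.map Prod.fst (⟨yg, lw', cw'.2⟩ : RW K).toList.head?,
          (⟨yg, lw', cw'.2⟩ : RW K).head ∈ toSubgroup K K u' → () = p.1 → u' = p.2 := by
        simpa using cw'.1
      have ha' : ∀ p ∈ Option.map Prod.fst (⟨xg, l, ca'.2⟩ : RW K).toList.head?,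
          (⟨xg, l, ca'.2⟩ : RW K).head ∈ toSubgroup K K u' → () = p.1 → u' = p.2 := by
        simpa using ca'.1
      obtain ⟨b, hbK, hb1, hb2⟩ := SkMem_step gw ga u' ⟨yg, lw', cw'.2⟩ ⟨xg, l, ca'.2⟩ hw' ha' h
      refine ⟨hx, b, hbK, hb1 ▸ hga, ?_⟩
      refine ih (!st) (MHNN.ReducedWord.smulBase b⁻¹ ⟨yg, lw', cw'.2⟩) xg ca'.2 hal ?_
      rw [RW.pr, MHNN.ReducedWord.prod_smulBase]
      rw [RW.pr] at hb2
      rw [hb2, ← mul_assoc, ← map_mul, inv_mul_cancel, map_one, one_mul]

/-- (S3) Induction on `l`. State `false`: `g k g' ⋯ = (g κ) · k (κ⁻¹ g') ⋯`. State `true`: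
`k g k⁻¹ g' ⋯ = (k (g κ) k⁻¹) · (κ⁻¹ g') ⋯` (`kk_mul_of`). -/
theorem mem_of_inOut (st : Bool) (g : H) (l : List ((Unit × ℤˣ) × H)) (h : InOut K P st g l) :
    pre K st * (MHNN.of g * (l.map fun x => MHNN.t x.1.1 ^ (x.1.2 : ℤ) * MHNN.of x.2).prod) ∈ P2 K P := by
  induction l generalizing st g with
  | nil =>
    obtain ⟨rfl, hg⟩ := h
    simpa [pre] using of_mem_P2 (K := K) hg
  | cons x l ih =>
    obtain ⟨hx, κ, hκ, hgκ, hl⟩ := h
    have IH := ih _ _ hl
    obtain ⟨⟨⟨⟩, u⟩, xg⟩ := x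
    simp only at hx
    subst hx
    have hc : Commute (kk K) (MHNN.of κ⁻¹) := kk_mul_of (K := K) (inv_mem hκ)
    simp only [List.map_cons, List.prod_cons]
    simp only at IH
    generalize (l.map fun x => (MHNN.t x.1.1 : Sk K) ^ (x.1.2 : ℤ) * MHNN.of x.2).prod = Q at IH ⊢
    cases st with
    | false =>
      have e : pre K false * (MHNN.of g * ((MHNN.t () : Sk K) ^ ((sgn false : ℤˣ) : ℤ) * MHNN.of xg * Q)) =
          MHNN.of (g * κ) * (pre K (!false) * (MHNN.of (κ⁻¹ * xg) * Q)) := by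
        calc pre K false * (MHNN.of g * ((MHNN.t () : Sk K) ^ ((sgn false : ℤˣ) : ℤ) * MHNN.of xg * Q))
            = MHNN.of g * (kk K * (MHNN.of xg * Q)) := by simp [pre, sgn, kk, mul_assoc]
          _ = MHNN.of g * (MHNN.of κ * (MHNN.of κ⁻¹ * kk K) * (MHNN.of xg * Q)) := by
              rw [← mul_assoc (MHNN.of κ), ← map_mul, mul_inv_cancel, map_one, one_mul]
          _ = MHNN.of g * (MHNN.of κ * (kk K * MHNN.of κ⁻¹) * (MHNN.of xg * Q)) := by rw [hc.eq]
          _ = _ := by simp [pre, map_mul, mul_assoc]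
      rw [e]
      exact mul_mem (of_mem_P2 hgκ) IH
    | true =>
      have hc' : Commute (kk K)⁻¹ (MHNN.of κ⁻¹) := hc.inv_left
      have e : pre K true * (MHNN.of g * ((MHNN.t () : Sk K) ^ ((sgn true : ℤˣ) : ℤ) * MHNN.of xg * Q)) =
          (kk K * MHNN.of (g * κ) * (kk K)⁻¹) * (pre K (!true) * (MHNN.of (κ⁻¹ * xg) * Q)) := by
        calc pre K true * (MHNN.of g * ((MHNN.t () : Sk K) ^ ((sgn true : ℤˣ) : ℤ) * MHNN.of xg * Q))
            = kk K * (MHNN.of g * ((kk K)⁻¹ * (MHNN.of xg * Q))) := by simp [pre, sgn, kk, mul_assoc]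
          _ = kk K * (MHNN.of g * (MHNN.of κ * (MHNN.of κ⁻¹ * (kk K)⁻¹) * (MHNN.of xg * Q))) := by
              rw [← mul_assoc (MHNN.of κ), ← map_mul, mul_inv_cancel, map_one, one_mul]
          _ = kk K * (MHNN.of g * (MHNN.of κ * ((kk K)⁻¹ * MHNN.of κ⁻¹) * (MHNN.of xg * Q))) := by
              rw [hc'.eq]
          _ = _ := by simp [pre, map_mul, mul_assoc]
      rw [e]
      exact mul_mem (conj_mem_P2 hgκ) IH

/-- (S4) `exists_alt`, `inOut_of_alt`, `mem_of_inOut`. -/
theorem mem_P2_iff (w : RW K) : w.pr ∈ P2 K P ↔ InOut K P false w.head w.toList := by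
  constructor
  · intro h
    obtain ⟨a, ha, hpr⟩ := exists_alt h
    exact inOut_of_alt false w a ha hpr.symm
  · intro h
    have := mem_of_inOut false w.head w.toList h
    simpa [pre, RW.pr, MHNN.NormalWord.ReducedWord.prod] using this

/-- (S5) `←`: `mem_of_inOut`. `→`: if `w.head ∈ K` and `w.toList = (-1, g'') :: l''` then `k w = of (w.head g'') ⋯`, use (S4) for
`(w.head * g'', l'')` and `κ = w.head⁻¹`. Otherwise `cons 1 () 1 w` is reduced; (S4) gives `κ ∈ K ∩ P` with
`InOut true (κ⁻¹ w.head) w.toList`; remove `κ⁻¹` by `inOut_mul_left`. -/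
theorem kk_mul_mem_P2_iff (w : RW K) : kk K * w.pr ∈ P2 K P ↔ InOut K P true w.head w.toList := by
  constructor
  · intro h
    by_cases hA : w.head ∈ K ∧ ∃ g'' l'', w.toList = (((), -1), g'') :: l''
    · obtain ⟨hK, g'', l'', hl⟩ := hA
      rcases w with ⟨gw, lw, cw⟩
      simp only at hK hl
      subst hl
      have cw' := List.isChain_cons.1 cw
      have hc : Commute (kk K) (MHNN.of gw) := kk_mul_of (K := K) hK
      have e : kk K * RW.pr ⟨gw, (((), -1), g'') :: l'', cw⟩ = RW.pr ⟨gw * g'', l'', cw'.2⟩ := by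
        simp only [RW.pr, MHNN.NormalWord.ReducedWord.prod, List.map_cons, List.prod_cons]
        rw [← mul_assoc, hc.eq]
        simp [kk, mul_assoc]
      rw [e, mem_P2_iff] at h
      refine ⟨rfl, gw⁻¹, inv_mem hK, by simp [one_mem], ?_⟩
      simpa using h
    · have hw : ∀ p ∈ Option.map Prod.fst w.toList.head?,
          w.head ∈ toSubgroup K K 1 → () = p.1 → (1 : ℤˣ) = p.2 := by
        intro p hp hK _
        rcases w with ⟨gw, lw, cw⟩
        cases lw with
        | nil => simp at hp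
        | cons x l =>
          obtain ⟨⟨⟨⟩, u⟩, xg⟩ := x
          simp only [List.head?_cons, Option.map_some, Option.mem_def, Option.some.injEq] at hp
          subst hp
          rcases Int.units_eq_one_or u with rfl | rfl
          · rfl
          · exact absurd ⟨hK, xg, l, rfl⟩ hA
      have e : kk K * w.pr = RW.pr (MHNN.ReducedWord.cons 1 () 1 w hw) := by
        show kk K * w.pr = MHNN.NormalWord.ReducedWord.prod (fun _ : Unit => MulEquiv.refl K)
          (MHNN.ReducedWord.cons 1 () 1 w hw)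
        rw [MHNN.ReducedWord.prod_cons]
        simp [kk]
      rw [e, mem_P2_iff] at h
      obtain ⟨_, κ, hκ, hκP, hio⟩ := h
      replace hκP : κ ∈ P := by simpa using hκP
      exact (inOut_mul_left (inv_mem hκP) true w.head w.toList).1 hio
  · intro h
    have := mem_of_inOut true w.head w.toList h
    simpa [pre, RW.pr, MHNN.NormalWord.ReducedWord.prod] using this

end Claimed.Agent.R152.CL
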