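/-
Row 152, module CL (Clapham), helper322.  THE `k`-LEVEL: the complement of `P₂` is representable.
-/
import Claimed.Agent.R152.CL.SkMem

set_option autoImplicit false

namespace Claimed.Agent.R152.CL

open Claimed.Agent.R152.H Claimed.Agent.R152.RE
open HNNExtension (toSubgroup toSubgroupEquiv)
open scoped Pointwise

variable {H : Type*} [Group H] {K P : Subgroup H}

/-- The constant parts of the right-linear system (`0` = outside, `1` = inside). -/
def cA (K P : Subgroup H) : Fin 2 → Set (Sk K) :=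
  ![(MHNN.of : H → Sk K) '' {h | h ∉ P}
      ∪ (MHNN.of : H → Sk K) '' {h | h ∉ (P : Set H) * (K : Set H)} * {x | Tail 1 x}
      ∪ (MHNN.of : H → Sk K) '' Set.univ * {x | Tail (-1) x},
    (MHNN.of : H → Sk K) '' Set.univ
      ∪ (MHNN.of : H → Sk K) '' {h | h ∉ (P : Set H) * (K : Set H)} * {x | Tail (-1) x}
      ∪ (MHNN.of : H → Sk K) '' Set.univ * {x | Tail 1 x}]

/-- The coefficients: `C_out ⊇ P k C_in`, `C_in ⊇ P k⁻¹ C_out`. -/
def cM (K P : Subgroup H) : Fin 2 → Fin 2 → Set (Sk K) :=
  ![![∅, (MHNN.of : H → Sk K) '' P * {kk K}], ![(MHNN.of : H → Sk K) '' P * {(kk K)⁻¹}, ∅]]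

/-- (S4) and (S5) in one statement. -/
theorem skrep_pre_mul_mem_iff (st : Bool) (w : RW K) :
    pre K st * w.pr ∈ P2 K P ↔ InOut K P st w.head w.toList := by
  cases st
  · simpa [pre] using mem_P2_iff (P := P) w
  · simpa [pre] using kk_mul_mem_P2_iff (P := P) w

theorem skrep_of_not_mem (st : Bool) (h' : H) (hc : st = true ∨ h' ∉ P) :
    pre K st * (MHNN.of h' : Sk K) ∉ P2 K P := by
  have e : (MHNN.of h' : Sk K) = RW.pr (K := K) (MHNN.ReducedWord.ofGroup h') := by
    simp [RW.pr]
  rw [e, skrep_pre_mul_mem_iff]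
  simp only [MHNN.ReducedWord.ofGroup_head, MHNN.ReducedWord.ofGroup_toList, InOut]
  rintro ⟨h1, h2⟩
  rcases hc with h | h
  · rw [h] at h1; exact Bool.noConfusion h1
  · exact h h2

theorem skrep_tail_not_mem (st : Bool) (h' : H) (u : ℤˣ) (y : Sk K) (hy : Tail u y)
    (hc : u ≠ sgn st ∨ h' ∉ (P : Set H) * (K : Set H)) :
    pre K st * (MHNN.of h' * y) ∉ P2 K P := by
  obtain ⟨w, hw, rfl⟩ := (tail_iff u y).1 hy
  have e : (MHNN.of h' : Sk K) * MHNN.NormalWord.ReducedWord.prod (fun _ : Unit => MulEquiv.refl K)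
      (MHNN.ReducedWord.cons 1 () u w hw) = RW.pr (K := K) (MHNN.ReducedWord.cons h' () u w hw) := by
    simp [RW.pr]
  rw [e, skrep_pre_mul_mem_iff]
  simp only [MHNN.ReducedWord.cons_head, MHNN.ReducedWord.cons_toList, InOut]
  rintro ⟨hu, κ, hκ, hp, _⟩
  rcases hc with h | h
  · exact h hu
  · exact h (Set.mem_mul.2 ⟨h' * κ, hp, κ⁻¹, inv_mem hκ, by simp⟩)

/-- the unknown belonging to a state -/
def skrepIdx (st : Bool) : Fin 2 := if st then 1 else 0

/-- Soundness. -/
theorem skrep_sound (i : Fin 2) (x : Sk K) (h : Rep.Lin (cA K P) (cM K P) i x) :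
    ∀ st : Bool, i = skrepIdx st → pre K st * x ∉ P2 K P := by
  induction h with
  | @base i x hx =>
    intro st hi
    subst hi
    cases st
    · simp only [skrepIdx, cA, Bool.false_eq_true, if_false, Matrix.cons_val_zero] at hx
      rcases hx with (⟨h', hh', rfl⟩ | hx) | hx
      · exact skrep_of_not_mem false h' (Or.inr hh')
      · obtain ⟨_, ⟨h', hh', rfl⟩, y, hy, rfl⟩ := Set.mem_mul.1 hx
        exact skrep_tail_not_mem false h' 1 y hy (Or.inr hh')
      · obtain ⟨_, ⟨h', _, rfl⟩, y, hy, rfl⟩ := Set.mem_mul.1 hx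
        exact skrep_tail_not_mem false h' (-1) y hy (Or.inl (by simp [sgn]))
    · simp only [skrepIdx, cA, if_true, Matrix.cons_val_one, Matrix.cons_val_fin_one] at hx
      rcases hx with (⟨h', _, rfl⟩ | hx) | hx
      · exact skrep_of_not_mem true h' (Or.inl rfl)
      · obtain ⟨_, ⟨h', hh', rfl⟩, y, hy, rfl⟩ := Set.mem_mul.1 hx
        exact skrep_tail_not_mem true h' (-1) y hy (Or.inr hh')
      · obtain ⟨_, ⟨h', _, rfl⟩, y, hy, rfl⟩ := Set.mem_mul.1 hx
        exact skrep_tail_not_mem true h' 1 y hy (Or.inl (by simp [sgn]))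
  | @step i j m x hm hx ih =>
    intro st hi
    subst hi
    cases st
    · -- `i = 0`
      fin_cases j
      · simp [skrepIdx, cM] at hm
      · simp only [skrepIdx, cM, Bool.false_eq_true, if_false, Matrix.cons_val_zero, Fin.mk_one,
          Matrix.cons_val_one, Matrix.cons_val_fin_one] at hm
        obtain ⟨_, ⟨p, hp, rfl⟩, _, rfl, rfl⟩ := Set.mem_mul.1 hm
        have h1 := ih true rfl
        simp only [pre, if_true, Bool.false_eq_true, if_false, one_mul] at h1 ⊢
        rw [mul_assoc, Subgroup.mul_mem_cancel_left _ (of_mem_P2 hp)]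
        exact h1
    · fin_cases j
      · simp only [skrepIdx, cM, if_true, Matrix.cons_val_zero, Fin.zero_eta,
          Matrix.cons_val_one, Matrix.cons_val_fin_one] at hm
        obtain ⟨_, ⟨p, hp, rfl⟩, _, rfl, rfl⟩ := Set.mem_mul.1 hm
        have h1 := ih false rfl
        simp only [pre, if_true, Bool.false_eq_true, if_false, one_mul] at h1 ⊢
        have e : kk K * (MHNN.of p * (kk K)⁻¹ * x) = (kk K * MHNN.of p * (kk K)⁻¹) * x := by
          simp only [mul_assoc]
        rw [e, Subgroup.mul_mem_cancel_left _ (conj_mem_P2 hp)]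
        exact h1
      · simp [skrepIdx, cM] at hm

/-- the letters of a nonempty reduced list form a tail -/
theorem skrep_tail_of_chain (u : ℤˣ) (g' : H) (l' : List ((Unit × ℤˣ) × H))
    (hc : ((((), u), g') :: l').IsChain (fun a b =>
      a.2 ∈ toSubgroup K K a.1.2 → a.1.1 = b.1.1 → a.1.2 = b.1.2)) :
    Tail (A := K) (B := K) (φ := MulEquiv.refl K) u
      (((((), u), g') :: l').map fun x => (MHNN.t x.1.1 : Sk K) ^ (x.1.2 : ℤ) * MHNN.of x.2).prod := by
  rw [tail_iff]
  refine ⟨⟨g', l', (List.isChain_cons.1 hc).2⟩, ?_, ?_⟩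
  · simpa using (List.isChain_cons.1 hc).1
  · simp [MHNN.NormalWord.ReducedWord.prod, mul_assoc]

theorem skrep_kk_zpow_mul_of (u : ℤˣ) {κ : H} (hκ : κ ∈ K) :
    (MHNN.of κ : Sk K) * kk K ^ (u : ℤ) = kk K ^ (u : ℤ) * MHNN.of κ := by
  have h := kk_mul_of hκ
  rcases Int.units_eq_one_or u with rfl | rfl
  · simpa using h.symm
  · simp only [Units.val_neg, Units.val_one, zpow_neg, zpow_one]
    rw [eq_inv_mul_iff_mul_eq, ← mul_assoc, h, mul_assoc, mul_inv_cancel, mul_one]

/-- Completeness. -/
theorem skrep_complete (l : List ((Unit × ℤˣ) × H)) :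
    l.IsChain (fun a b => a.2 ∈ toSubgroup K K a.1.2 → a.1.1 = b.1.1 → a.1.2 = b.1.2) →
    ∀ (st : Bool) (g : H), ¬ InOut K P st g l →
      Rep.Lin (cA K P) (cM K P) (skrepIdx st)
        ((MHNN.of g : Sk K) * (l.map fun x => (MHNN.t x.1.1 : Sk K) ^ (x.1.2 : ℤ) * MHNN.of x.2).prod) := by
  induction l with
  | nil =>
    intro _ st g hn
    simp only [InOut, not_and] at hn
    apply Rep.Lin.base
    simp only [List.map_nil, List.prod_nil, mul_one]
    cases st
    · simp only [skrepIdx, cA, Bool.false_eq_true, if_false, Matrix.cons_val_zero]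
      exact Or.inl (Or.inl ⟨g, hn rfl, rfl⟩)
    · simp only [skrepIdx, cA, if_true, Matrix.cons_val_one, Matrix.cons_val_fin_one]
      exact Or.inl (Or.inl ⟨g, trivial, rfl⟩)
  | cons a l' ih =>
    intro hc st g hn
    obtain ⟨⟨⟨⟩, u⟩, g'⟩ := a
    have htail := skrep_tail_of_chain u g' l' hc
    by_cases hu : u = sgn st
    · by_cases hg : g ∈ (P : Set H) * (K : Set H)
      · obtain ⟨p, hp, κ0, hκ0, rfl⟩ := Set.mem_mul.1 hg
        have hn' : ¬ InOut K P (!st) (κ0 * g') l' := by
          intro hI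
          apply hn
          simp only [InOut]
          exact ⟨hu, κ0⁻¹, inv_mem hκ0, by simpa using hp, by simpa using hI⟩
        have hL := ih (List.isChain_cons.1 hc).2 (!st) (κ0 * g') hn'
        have e : (MHNN.of (p * κ0) : Sk K) * (((((), u), g') :: l').map
              (fun x => (MHNN.t x.1.1 : Sk K) ^ (x.1.2 : ℤ) * MHNN.of x.2)).prod
            = (MHNN.of p * kk K ^ (u : ℤ)) * ((MHNN.of (κ0 * g') : Sk K) * (l'.map
              fun x => (MHNN.t x.1.1 : Sk K) ^ (x.1.2 : ℤ) * MHNN.of x.2).prod) := by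
          simp only [List.map_cons, List.prod_cons, map_mul]
          have h1 := skrep_kk_zpow_mul_of u hκ0
          have h2 : (MHNN.t () : Sk K) = kk K := rfl
          rw [h2]
          generalize (l'.map fun x => (MHNN.t x.1.1 : Sk K) ^ (x.1.2 : ℤ) * MHNN.of x.2).prod = R
          calc (MHNN.of p : Sk K) * MHNN.of κ0 * (kk K ^ (u : ℤ) * MHNN.of g' * R)
              = MHNN.of p * (MHNN.of κ0 * kk K ^ (u : ℤ)) * (MHNN.of g' * R) := by
                simp only [mul_assoc]
            _ = _ := by rw [h1]; simp only [mul_assoc]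
        rw [e]
        refine Rep.Lin.step ?_ hL
        subst hu
        cases st
        · simp only [skrepIdx, cM, sgn, Bool.false_eq_true, if_false, Bool.not_false, if_true,
            Matrix.cons_val_zero, Matrix.cons_val_one, Matrix.cons_val_fin_one, Units.val_one, zpow_one]
          exact Set.mem_mul.2 ⟨_, ⟨p, hp, rfl⟩, _, rfl, rfl⟩
        · simp only [skrepIdx, cM, sgn, Bool.false_eq_true, if_false, Bool.not_true, if_true,
            Matrix.cons_val_zero, Matrix.cons_val_one, Matrix.cons_val_fin_one, Units.val_neg,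
            Units.val_one, zpow_neg, zpow_one]
          exact Set.mem_mul.2 ⟨_, ⟨p, hp, rfl⟩, _, rfl, rfl⟩
      · apply Rep.Lin.base
        subst hu
        cases st
        · simp only [skrepIdx, cA, Bool.false_eq_true, if_false, Matrix.cons_val_zero]
          exact Or.inl (Or.inr (Set.mem_mul.2 ⟨_, ⟨g, hg, rfl⟩, _, htail, rfl⟩))
        · simp only [skrepIdx, cA, if_true, Matrix.cons_val_one, Matrix.cons_val_fin_one]
          exact Or.inl (Or.inr (Set.mem_mul.2 ⟨_, ⟨g, hg, rfl⟩, _, htail, rfl⟩))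
    · apply Rep.Lin.base
      cases st
      · have hu' : u = -1 := by
          rcases Int.units_eq_one_or u with h | h
          · exact absurd h (by simpa [sgn] using hu)
          · exact h
        subst hu'
        simp only [skrepIdx, cA, Bool.false_eq_true, if_false, Matrix.cons_val_zero]
        exact Or.inr (Set.mem_mul.2 ⟨_, ⟨g, trivial, rfl⟩, _, htail, rfl⟩)
      · have hu' : u = 1 := by
          rcases Int.units_eq_one_or u with h | h
          · exact h
          · exact absurd h (by simpa [sgn] using hu)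
        subst hu'
        simp only [skrepIdx, cA, if_true, Matrix.cons_val_one, Matrix.cons_val_fin_one]
        exact Or.inr (Set.mem_mul.2 ⟨_, ⟨g, trivial, rfl⟩, _, htail, rfl⟩)

/-- SOUNDNESS AND COMPLETENESS of the system: `C_out = S_k \ P₂`.
`→` (together with `Lin 1 x → k x ∉ P₂`): induction on `Lin`. Base cases: write the element as the product of a reduced word
(`tail_iff`) and use (S4), (S5): `InOut false g ((u,_) :: _)` needs `u = 1` and `g ∈ P K`; `InOut true g []` is false,
`InOut true g ((u,_) :: _)` needs `u = -1` and `g ∈ P K`. Steps: `p k x ∈ P₂ ↔ k x ∈ P₂`; `k p k⁻¹ x ∈ P₂ ↔ x ∈ P₂`.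
`←` (together with `k x ∉ P₂ → Lin 1 x`): `x = w.pr`, induction on the length of `w.toList`, unfolding `¬ InOut`:
wrong sign or `g ∉ P K`: base case (the rest is a `Tail` by `tail_iff`); otherwise `g κ ∈ P` and `¬ InOut (!st) (κ⁻¹ g') l'`:
`x = of (g κ) · k^{±1} · (smulBase κ⁻¹ w').pr`, induction hypothesis and `Lin.step`. -/
theorem lin_zero_iff (x : Sk K) : Rep.Lin (cA K P) (cM K P) 0 x ↔ x ∉ P2 K P := by
  constructor
  · intro h
    simpa [pre] using skrep_sound 0 x h false rfl
  · intro h
    obtain ⟨w, rfl⟩ := MHNN.exists_reducedWord (φ := fun _ : Unit => MulEquiv.refl K) x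
    have hn : ¬ InOut K P false w.head w.toList := fun hI => h ((mem_P2_iff w).2 hI)
    exact skrep_complete w.toList w.chain false w.head hn

/-- The complement of `P₂` is representable: `Rep.lin`, `lin_zero_iff`; the sets `cA`, `cM` are representable by `Rep.map MHNN.of`,
`rep_tail`, `Rep.mul`, `Rep.union`, `Rep.univ`, `Rep.singleton`, `Rep.of_fg`, `Rep.empty` (`Fin 2` cases: `Fin.cases`/`fin_cases`). -/
theorem rep_not_mem_P2 {n : ℕ} {gen : Fin n → H} (hgen : Subgroup.closure (Set.range gen) = ⊤)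
    (hPfg : P.FG) (hK : Rep gen {h | h ∉ K}) (hP : Rep gen {h | h ∉ P})
    (hPK : Rep gen {h | h ∉ (P : Set H) * (K : Set H)}) :
    Rep (genExt (A := K) (B := K) (φ := MulEquiv.refl K) gen) {x | x ∉ P2 K P} := by
  have htop := genExt_top (A := K) (B := K) (φ := MulEquiv.refl K) hgen
  have hT : ∀ u : ℤˣ, Rep (genExt (A := K) (B := K) (φ := MulEquiv.refl K) gen)
      {x : Sk K | Tail u x} := fun u => rep_tail hgen hK hK u
  have hmap : ∀ S : Set H, Rep gen S →
      Rep (genExt (A := K) (B := K) (φ := MulEquiv.refl K) gen) ((MHNN.of : H → Sk K) '' S) :=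
    fun S hS => Rep.map htop MHNN.of hS
  have hU := hmap Set.univ (Rep.univ hgen)
  have hPr := hmap (P : Set H) (Rep.of_fg hgen P hPfg)
  have hA : ∀ i, Rep (genExt (A := K) (B := K) (φ := MulEquiv.refl K) gen) (cA K P i) := by
    intro i
    fin_cases i
    · exact ((hmap _ hP).union ((hmap _ hPK).mul (hT 1))).union (hU.mul (hT (-1)))
    · exact (hU.union ((hmap _ hPK).mul (hT (-1)))).union (hU.mul (hT 1))
  have hM : ∀ i j, Rep (genExt (A := K) (B := K) (φ := MulEquiv.refl K) gen) (cM K P i j) := by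
    intro i j
    fin_cases i <;> fin_cases j
    · exact Rep.empty
    · exact hPr.mul (Rep.singleton htop _)
    · exact hPr.mul (Rep.singleton htop _)
    · exact Rep.empty
  have h := Rep.lin hA hM 0
  have e : {x | Rep.Lin (cA K P) (cM K P) 0 x} = {x | x ∉ P2 K P} := by
    ext x; exact lin_zero_iff x
  rwa [e] at h

end Claimed.Agent.R152.CL
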