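/-
Row 152, module CL (Clapham), helper322.  THE GROUP `M_G`.
Input: a hardware record `Hard m D` (f.p. group `H`, f.g. subgroups `K`, `P`, `π₀ : P →* F(letters, j)` with
`π₀ (K ∩ P) = ⟨w⁻¹ j w : w ∈ D⟩`, representable complements) for `D = {w | ev g w = 1}`.
`ψ₁ = β₁ ∘ π₀`, `ψ₂ = β₂ ∘ π₀ : P → Q`; they agree on `K ∩ P` because `β₁ (w⁻¹ j w) = g_w h = h = β₂ (w⁻¹ j w)` for `w ∈ D`.
`M_G = ⟨S_k × Q, d | d (x,1) d⁻¹ = (x, ψ x)  (x ∈ P₂)⟩`, `ψ = ψ₁ * ψ₂` on `P₂ = P *_{K ∩ P} k P k⁻¹`.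
-/
import Claimed.Agent.R152.CL.Q
import Claimed.Agent.R152.CL.SkRep

set_option autoImplicit false

namespace Claimed.Agent.R152.CL

open Claimed.Agent.R152.H Claimed.Agent.R152.RE
open scoped Pointwise

/-- What CL needs from the hardware (modules HW + MC), for an input alphabet of `2 m` letters and an accepted set `D`. -/
structure Hard (m : ℕ) (D : Wd m → Prop) where
  /-- the hardware group -/
  H : Type
  /-- its group structure -/
  [grp : Group H]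
  fp : Group.IsFinitelyPresented H
  /-- number of generators -/
  n : ℕ
  /-- generators -/
  gen : Fin n → H
  gen_top : Subgroup.closure (Set.range gen) = ⊤
  /-- the machine subgroup -/
  K : Subgroup H
  /-- the input subgroup -/
  P : Subgroup H
  K_fg : K.FG
  P_fg : P.FG
  /-- the label homomorphism -/
  pi0 : P →* FreeGroup (Alp m)
  /-- `π₀ (K ∩ P) ≤ ⟨w⁻¹ j w : w ∈ D⟩` -/
  pi0_le : ∀ (p : H) (hp : p ∈ P), p ∈ K → pi0 ⟨p, hp⟩ ∈ Subgroup.closure {x | ∃ w, D w ∧ x = cj w}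
  /-- every `w⁻¹ j w`, `w ∈ D`, is the label of an element of `K ∩ P` -/
  le_pi0 : ∀ w, D w → ∃ (p : H) (hp : p ∈ P), p ∈ K ∧ pi0 ⟨p, hp⟩ = cj w
  rep_one : Rep gen {h | h ≠ 1}
  rep_K : Rep gen {h | h ∉ K}
  rep_P : Rep gen {h | h ∉ P}
  rep_PK : Rep gen {h | h ∉ (P : Set H) * (K : Set H)}

attribute [instance] Hard.grp

variable {G : Type*} [Group G] {m : ℕ} (g : Fin m → G)
variable (hw : Hard m (fun w => ev g w = 1))

/-- `ψ₁`. -/
def psi1 : hw.P →* QG g := (beta1 g).comp hw.pi0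

/-- `ψ₂`. -/
def psi2 : hw.P →* QG g := (beta2 g).comp hw.pi0

/-- `ψ₁ = ψ₂` on `K ∩ P`: the equaliser of `β₁`, `β₂` is a subgroup containing all `cj w` with `ev g w = 1`
(`beta1_cj`, `beta2_cj`, `map_one`), hence the closure (`Subgroup.closure_le`, `MonoidHom.eqLocus`); apply `hw.pi0_le`. -/
theorem psi_agree (c : hw.H) (hc : c ∈ hw.P) (hK : c ∈ hw.K) :
    psi1 g hw ⟨c, hc⟩ = psi2 g hw ⟨c, hc⟩ := by
  have hle : Subgroup.closure {x | ∃ w, ev g w = 1 ∧ x = cj w} ≤ (beta1 g).eqLocus (beta2 g) := by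
    rw [Subgroup.closure_le]
    rintro x ⟨w, hw1, rfl⟩
    show beta1 g (cj w) = beta2 g (cj w)
    rw [beta1_cj, beta2_cj, hw1, map_one, one_mul]
  exact hle (hw.pi0_le c hc hK)

/-- `ψ : P₂ → Q`. -/
noncomputable def psi : P2 hw.K hw.P →* QG g :=
  (exists_lift_P2 (psi1 g hw) (psi2 g hw) (psi_agree g hw)).choose

theorem psi_of (u : hw.H) (hu : u ∈ hw.P) :
    psi g hw ⟨MHNN.of u, of_mem_P2 hu⟩ = psi1 g hw ⟨u, hu⟩ :=
  (exists_lift_P2 (psi1 g hw) (psi2 g hw) (psi_agree g hw)).choose_spec.1 u hu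

theorem psi_conj (u : hw.H) (hu : u ∈ hw.P) :
    psi g hw ⟨kk hw.K * MHNN.of u * (kk hw.K)⁻¹, conj_mem_P2 hu⟩ = psi2 g hw ⟨u, hu⟩ :=
  (exists_lift_P2 (psi1 g hw) (psi2 g hw) (psi_agree g hw)).choose_spec.2 u hu

/-- The Clapham envelope of `G`. -/
abbrev MG : Type _ := Gr (P2 hw.K hw.P) (psi g hw)

namespace MG

/-- `G → Q → S_k × Q → M_G`. -/
noncomputable def emb : G →* MG g hw := (MHNN.of.comp (MonoidHom.inr _ _)).comp (QG.Gam g)

/-- `MHNN.of_injective`, `QG.Gam_injective`, injectivity of `MonoidHom.inr`. -/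
theorem emb_injective : Function.Injective (emb g hw) := by
  intro x y hxy
  have h1 : (MonoidHom.inr _ _ (QG.Gam g x) : _ × QG g) = MonoidHom.inr _ _ (QG.Gam g y) :=
    MHNN.of_injective hxy
  have h2 : QG.Gam g x = QG.Gam g y := congrArg Prod.snd h1
  exact QG.Gam_injective g h2

/-- Generators: `d`; `k`, generators of `H`; `h`, `vᵢ`, `gᵢ`. -/
noncomputable def gen : Fin (hw.n + 1 + (m + m + 1) + 1) → MG g hw :=
  genExt (genProd (genExt (A := hw.K) (B := hw.K) (φ := MulEquiv.refl hw.K) hw.gen) (QG.gen g))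

theorem gen_top (hg : Subgroup.closure (Set.range g) = ⊤) :
    Subgroup.closure (Set.range (gen g hw)) = ⊤ :=
  genExt_top (genProd_top (genExt_top hw.gen_top) (QG.gen_top g hg))

/-- THE WORD PROBLEM OF `M_G`. -/
theorem rep_ne_one (hg : Subgroup.closure (Set.range g) = ⊤)
    (hWP : ComputablePred fun w : Wd m => ev g w = 1) : Rep (gen g hw) {x | x ≠ 1} :=
  Gr.rep_ne_one (genExt_top hw.gen_top) (QG.gen_top g hg) (P2_fg hw.P_fg)
    (CL.rep_ne_one hw.gen_top hw.rep_one hw.rep_K hw.rep_K)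
    (rep_not_mem_P2 hw.gen_top hw.P_fg hw.rep_K hw.rep_P hw.rep_PK)
    (QG.rep_ne_one g hg hWP)

end MG

end Claimed.Agent.R152.CL
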