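/-
Row 152, module CL (Clapham), helper322.  `M_G` IS FINITELY PRESENTED.
`Q` is not f.p. (its base contains `G`).  Replace `G` by the free group: `Qpre = (F_m × F_m) ∗ ⟨h⟩ → Q`, `Ppre = S_k × Qpre`,
`Big = Ppre ∗ ⟨d⟩ → M_G`.  By helper22's `MHNN.ker_fromCoprod` (twice) the kernel of `Big → M_G` is normally generated by the finitely
many HNN relators of `h` and `d` and by the elements `(1, γ_w)`, `ev g w = 1`.  The latter are CONSEQUENCES of the former:
for `e ∈ K ∩ P` with label `w⁻¹ j w` we have `e = k e k⁻¹`, conjugation by `d` gives `ψ₁(e) = ψ₂(e)`, i.e. `v_w⁻¹ h v_w = h`, and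
`v_w⁻¹ h v_w = γ_w h` by the relators of `h`.
-/
import Claimed.Agent.R152.CL.MG
import Claimed.Agent.R152.B.FpProd

set_option autoImplicit false

namespace Claimed.Agent.R152.CL

open Claimed.Agent.R152.H Claimed.Agent.R152.RE
open Monoid.Coprod

variable {G : Type*} [Group G] {m : ℕ} (g : Fin m → G)

/-- `F_m × F_m` (first factor: the `vᵢ`, second factor: free cover of `G`). -/
abbrev FF (m : ℕ) : Type := FreeGroup (Fin m) × FreeGroup (Fin m)

/-- The f.p. cover of `Q`. -/
abbrev Qpre (m : ℕ) : Type := Monoid.Coprod (FF m) (FreeGroup Unit)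

/-- `F_m × F_m → F_m × G`. -/
def pB : FF m →* FreeGroup (Fin m) × G := MonoidHom.prodMap (MonoidHom.id _) (FreeGroup.lift g)

/-- `FreeGroup.lift g` is onto because its range contains `closure (range g) = ⊤`. -/
theorem pB_surjective (hg : Subgroup.closure (Set.range g) = ⊤) : Function.Surjective (pB g) := by
  have hl : Function.Surjective (FreeGroup.lift g) :=
    FreeGroup.lift_surjective_iff_closure_range_eq_top.2 hg
  rintro ⟨a, b⟩
  obtain ⟨c, rfl⟩ := hl b
  exact ⟨(a, c), rfl⟩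

/-- `x ∈ ker pB ↔ x = (1, mk w)` with `ev g w = 1` (`FreeGroup.mk_toWord`, `lift_mk`). -/
theorem mem_ker_pB (x : FF m) : x ∈ (pB g).ker ↔ ∃ w : Wd m, ev g w = 1 ∧ x = (1, FreeGroup.mk w) := by
  constructor
  · intro hx
    have hx' : pB g x = 1 := hx
    have h1 : x.1 = 1 := congrArg Prod.fst hx'
    have h2 : FreeGroup.lift g x.2 = 1 := congrArg Prod.snd hx'
    refine ⟨x.2.toWord, ?_, ?_⟩
    · rw [← lift_mk, FreeGroup.mk_toWord, h2]
    · rw [FreeGroup.mk_toWord]
      exact Prod.ext h1 rfl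
  · rintro ⟨w, hw, rfl⟩
    rw [MonoidHom.mem_ker]
    refine Prod.ext rfl ?_
    change FreeGroup.lift g (FreeGroup.mk w) = 1
    rw [lift_mk, hw]

/-- `Qpre → Q`. -/
def pQ : Qpre m →* QG g := MHNN.fromCoprod (φ := fun _ : Unit => grφ ⊤ (piG g)) (pB g)

theorem pQ_surjective (hg : Subgroup.closure (Set.range g) = ⊤) : Function.Surjective (pQ g) :=
  MHNN.fromCoprod_surjective _ (pB_surjective g hg)

/-- The relators `h vᵢ h⁻¹ = vᵢ γᵢ`. -/
def RQ (m : ℕ) : Unit → Set (FF m × FF m) := fun _ =>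
  Set.range fun i : Fin m => ((FreeGroup.of i, 1), (FreeGroup.of i, FreeGroup.of i))

/-- `MHNN.ker_fromCoprod`. `hR`: `pB (vᵢ,1) = (vᵢ,1) ∈ grA`, `grφ (vᵢ,1) = (vᵢ, gᵢ) = pB (vᵢ,γᵢ)`. `hgen`: the `(vᵢ,1)` generate
`grA ⊤ G = F_m × 1` (image of `FreeGroup.closure_range_of` under `MonoidHom.inl`). -/
theorem ker_pQ (hg : Subgroup.closure (Set.range g) = ⊤) :
    (pQ g).ker = Subgroup.normalClosure
      ((inl : FF m → Qpre m) '' ((pB g).ker : Set (FF m)) ∪ MHNN.relators (RQ m)) := by
  refine MHNN.ker_fromCoprod (φ := fun _ : Unit => grφ ⊤ (piG g)) (pB g) (pB_surjective g hg)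
    (RQ m) ?_ ?_
  · rintro _ r ⟨i, rfl⟩
    refine ⟨⟨(FreeGroup.of i, 1), mem_grA.2 ⟨trivial, rfl⟩⟩, ?_, ?_⟩
    · refine Prod.ext rfl ?_
      change FreeGroup.lift g 1 = 1
      rw [map_one]
    · refine Prod.ext rfl ?_
      change FreeGroup.lift g (FreeGroup.of i) = FreeGroup.lift g (FreeGroup.of i)
      rfl
  · intro _
    have himg : (fun r : FF m × FF m => pB g r.1) '' RQ m () =
        (MonoidHom.inl (FreeGroup (Fin m)) G) '' Set.range (FreeGroup.of : Fin m → _) := by
      ext x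
      constructor
      · rintro ⟨r, ⟨i, rfl⟩, rfl⟩
        refine ⟨FreeGroup.of i, ⟨i, rfl⟩, ?_⟩
        refine Prod.ext rfl ?_
        change (1 : G) = FreeGroup.lift g 1
        rw [map_one]
      · rintro ⟨_, ⟨i, rfl⟩, rfl⟩
        refine ⟨_, ⟨i, rfl⟩, ?_⟩
        refine Prod.ext rfl ?_
        change FreeGroup.lift g 1 = (1 : G)
        rw [map_one]
    rw [himg, ← MonoidHom.map_closure, FreeGroup.closure_range_of]
    ext x
    rw [mem_grA]
    constructor
    · rintro ⟨y, -, rfl⟩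
      exact ⟨trivial, rfl⟩
    · rintro ⟨-, h2⟩
      exact ⟨x.1, trivial, Prod.ext rfl h2.symm⟩

/-- `β₁` with values in `Qpre`. -/
def beta1pre (m : ℕ) : FreeGroup (Alp m) →* Qpre m :=
  FreeGroup.lift fun o => match o with
    | none => inr (FreeGroup.of ())
    | some l => if l.2 then inl (FreeGroup.of l.1, 1) else (inl (FreeGroup.of l.1, 1))⁻¹

/-- `β₂` with values in `Qpre`. -/
def beta2pre (m : ℕ) : FreeGroup (Alp m) →* Qpre m :=
  FreeGroup.lift fun o => match o with
    | none => inr (FreeGroup.of ())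
    | some _ => 1

/-- `FreeGroup.ext_hom`, cases on the letter. -/
theorem pQ_beta1pre : (pQ g).comp (beta1pre m) = beta1 g := by
  apply FreeGroup.ext_hom
  intro o
  have hB : ∀ i : Fin m, pB g (FreeGroup.of i, 1) = (FreeGroup.of i, 1) := by
    intro i
    refine Prod.ext rfl ?_
    change FreeGroup.lift g 1 = (1 : G)
    rw [map_one]
  rcases o with _ | ⟨i, b⟩
  · simp [beta1pre, beta1, pQ, QG.hh]
  · cases b
    · simp [beta1pre, beta1, pQ, QG.V, hB]
    · simp [beta1pre, beta1, pQ, QG.V, hB]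

theorem pQ_beta2pre : (pQ g).comp (beta2pre m) = beta2 g := by
  apply FreeGroup.ext_hom
  intro o
  rcases o with _ | ⟨i, b⟩
  · simp [beta2pre, beta2, pQ, QG.hh]
  · simp [beta2pre, beta2]

/-- Induction on `w` for `beta1pre (wd w) = inl (mk w, 1)`. -/
theorem beta1pre_cj (w : Wd m) : beta1pre m (cj w) =
    (inl (FreeGroup.mk w, 1))⁻¹ * inr (FreeGroup.of ()) * inl (FreeGroup.mk w, 1) := by
  have hwd : ∀ w : Wd m, beta1pre m (wd w) = inl (FreeGroup.mk w, 1) := by
    intro w
    induction w with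
    | nil =>
      have : (FreeGroup.mk ([] : Wd m), (1 : FreeGroup (Fin m))) = 1 := rfl
      simp [wd, this]
    | cons l w ih =>
      have hw : wd (l :: w) = FreeGroup.of (some l) * wd w := by simp [wd]
      have hmk : (FreeGroup.mk (l :: w) : FreeGroup (Fin m)) = FreeGroup.mk [l] * FreeGroup.mk w := by
        rw [FreeGroup.mul_mk]; rfl
      have hsplit : ((FreeGroup.mk (l :: w) : FreeGroup (Fin m)), (1 : FreeGroup (Fin m))) =
          (FreeGroup.mk [l], 1) * (FreeGroup.mk w, 1) := by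
        rw [hmk]; exact Prod.ext rfl (one_mul 1).symm
      rw [hw, map_mul, ih, hsplit, map_mul]
      congr 1
      obtain ⟨i, b⟩ := l
      cases b
      · have : (FreeGroup.mk [(i, false)] : FreeGroup (Fin m)) = (FreeGroup.of i)⁻¹ := rfl
        have h2 : ((FreeGroup.of i)⁻¹, (1 : FreeGroup (Fin m))) =
            ((FreeGroup.of i, 1) : FF m)⁻¹ := Prod.ext rfl inv_one.symm
        rw [this, h2, map_inv]
        simp [beta1pre]
      · have : (FreeGroup.mk [(i, true)] : FreeGroup (Fin m)) = FreeGroup.of i := rfl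
        rw [this]
        simp [beta1pre]
  rw [cj, map_mul, map_mul, map_inv, hwd]
  simp [beta1pre]

theorem beta2pre_cj (w : Wd m) : beta2pre m (cj w) = inr (FreeGroup.of ()) := by
  have hwd : ∀ w : Wd m, beta2pre m (wd w) = 1 := by
    intro w
    induction w with
    | nil => simp [wd]
    | cons l w ih =>
      have hw : wd (l :: w) = FreeGroup.of (some l) * wd w := by simp [wd]
      rw [hw, map_mul, ih]
      simp [beta2pre]
  rw [cj, map_mul, map_mul, map_inv, hwd]
  simp [beta2pre]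

end Claimed.Agent.R152.CL
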