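/-
Row 152, module CL (Clapham), helper322.  `M_G` IS FINITELY PRESENTED: the cover `Big → M_G` and its kernel.  (Overview: header of `FpQ.lean`.)
-/
import Claimed.Agent.R152.CL.FpQ

set_option autoImplicit false

namespace Claimed.Agent.R152.CL

open Claimed.Agent.R152.H Claimed.Agent.R152.RE
open Monoid.Coprod

variable {G : Type*} [Group G] {m : ℕ} (g : Fin m → G)

variable (hw : Hard m (fun w => ev g w = 1))

/-- The f.p. cover of the base of `M_G`. -/
abbrev Ppre : Type := Sk hw.K × Qpre m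

/-- `S_k × Qpre → S_k × Q`. -/
def pP : Ppre g hw →* Sk hw.K × QG g := MonoidHom.prodMap (MonoidHom.id _) (pQ g)

theorem pP_surjective (hg : Subgroup.closure (Set.range g) = ⊤) : Function.Surjective (pP g hw) := by
  rintro ⟨x, y⟩
  obtain ⟨z, rfl⟩ := pQ_surjective g hg y
  exact ⟨(x, z), rfl⟩

/-- The f.p. cover of `M_G`. -/
abbrev Big : Type := Monoid.Coprod (Ppre g hw) (FreeGroup Unit)

/-- `Big → M_G`. -/
noncomputable def Phi : Big g hw →* MG g hw :=
  MHNN.fromCoprod (φ := fun _ : Unit => grφ (P2 hw.K hw.P) (psi g hw)) (pP g hw)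

theorem Phi_surjective (hg : Subgroup.closure (Set.range g) = ⊤) : Function.Surjective (Phi g hw) :=
  MHNN.fromCoprod_surjective _ (pP_surjective g hw hg)

/-- The relators `d u d⁻¹ = u ψ₁(u)`, `d (k u k⁻¹) d⁻¹ = (k u k⁻¹) ψ₂(u)`, `u ∈ S ⊆ P`. -/
def Rd (S : Set hw.P) : Unit → Set (Ppre g hw × Ppre g hw) := fun _ =>
  (fun u : hw.P => (((MHNN.of (u : hw.H), 1) : Ppre g hw),
      ((MHNN.of (u : hw.H), beta1pre m (hw.pi0 u)) : Ppre g hw))) '' S ∪
  (fun u : hw.P => (((kk hw.K * MHNN.of (u : hw.H) * (kk hw.K)⁻¹, 1) : Ppre g hw),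
      ((kk hw.K * MHNN.of (u : hw.H) * (kk hw.K)⁻¹, beta2pre m (hw.pi0 u)) : Ppre g hw))) '' S

/-- aux: if `S` generates `P` then `of '' S ∪ k (of '' S) k⁻¹` generates `P₂`. -/
theorem fpBig_closure_eq_P2 {H : Type*} [Group H] (K P : Subgroup H) (S : Set P)
    (hS : Subgroup.closure S = ⊤) :
    Subgroup.closure ((fun u : P => (MHNN.of (u : H) : Sk K)) '' S ∪
      (fun u : P => kk K * MHNN.of (u : H) * (kk K)⁻¹) '' S) = P2 K P := by
  set T : Subgroup (Sk K) := Subgroup.closure ((fun u : P => (MHNN.of (u : H) : Sk K)) '' S ∪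
      (fun u : P => kk K * MHNN.of (u : H) * (kk K)⁻¹) '' S) with hT
  let f1 : P →* Sk K := (MHNN.of : H →* Sk K).comp P.subtype
  let f2 : P →* Sk K := (MulAut.conj (kk K)).toMonoidHom.comp f1
  have h1 : ∀ u : P, f1 u ∈ T := by
    intro u
    have hle : (Subgroup.closure S).map f1 ≤ T := by
      rw [MonoidHom.map_closure]
      exact Subgroup.closure_mono Set.subset_union_left
    apply hle
    rw [hS]
    exact ⟨u, Subgroup.mem_top _, rfl⟩
  have h2 : ∀ u : P, f2 u ∈ T := by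
    intro u
    have hle : (Subgroup.closure S).map f2 ≤ T := by
      rw [MonoidHom.map_closure]
      exact Subgroup.closure_mono Set.subset_union_right
    apply hle
    rw [hS]
    exact ⟨u, Subgroup.mem_top _, rfl⟩
  apply le_antisymm
  · rw [hT, Subgroup.closure_le]
    rintro x (⟨u, -, rfl⟩ | ⟨u, -, rfl⟩)
    · exact of_mem_P2 u.2
    · exact conj_mem_P2 u.2
  · unfold P2
    rw [Subgroup.closure_le]
    rintro x (⟨u, hu, rfl⟩ | ⟨u, hu, rfl⟩)
    · exact h1 ⟨u, hu⟩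
    · exact h2 ⟨u, hu⟩

/-- aux: finitely many HNN relators. -/
theorem fpBig_relators_finite {P : Type*} [Group P] (R : Unit → Set (P × P)) (hR : (R ()).Finite) :
    (MHNN.relators R).Finite := by
  refine (hR.image (fun r : P × P => (inr (FreeGroup.of ()) * inl r.1 *
        (inr (FreeGroup.of ()))⁻¹ * (inl r.2)⁻¹ : Monoid.Coprod P (FreeGroup Unit)))).subset ?_
  rintro x ⟨i, r, hr, rfl⟩
  exact ⟨r, hr, rfl⟩

/-- `MHNN.ker_fromCoprod`. `hR`: `psi_of`, `psi_conj`, `pQ_beta1pre`, `pQ_beta2pre`. `hgen`: if `S` generates `P` then the elements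
`(of u, 1)`, `(k of u k⁻¹, 1)` (`u ∈ S`) generate `grA (P2 K P) Q = P₂ × 1` (as in `P2_fg`, then `MonoidHom.inl`). -/
theorem ker_Phi (hg : Subgroup.closure (Set.range g) = ⊤) (S : Set hw.P)
    (hS : Subgroup.closure S = ⊤) :
    (Phi g hw).ker = Subgroup.normalClosure
      ((inl : Ppre g hw → Big g hw) '' ((pP g hw).ker : Set (Ppre g hw)) ∪ MHNN.relators (Rd g hw S)) := by
  refine MHNN.ker_fromCoprod (pP g hw) (pP_surjective g hw hg) (Rd g hw S) ?_ ?_
  · rintro i r (⟨u, -, rfl⟩ | ⟨u, -, rfl⟩)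
    · refine ⟨⟨((MHNN.of (u : hw.H) : Sk hw.K), (1 : QG g)), mem_grA.2 ⟨of_mem_P2 u.2, rfl⟩⟩, ?_, ?_⟩
      · exact Prod.ext rfl (map_one (pQ g))
      · refine Prod.ext rfl ?_
        have h1 : pQ g (beta1pre m (hw.pi0 u)) = beta1 g (hw.pi0 u) :=
          DFunLike.congr_fun (pQ_beta1pre g) (hw.pi0 u)
        have h2 := psi_of g hw (u : hw.H) u.2
        exact h1.trans h2.symm
    · refine ⟨⟨((kk hw.K * MHNN.of (u : hw.H) * (kk hw.K)⁻¹ : Sk hw.K), (1 : QG g)),
        mem_grA.2 ⟨conj_mem_P2 u.2, rfl⟩⟩, ?_, ?_⟩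
      · exact Prod.ext rfl (map_one (pQ g))
      · refine Prod.ext rfl ?_
        have h1 : pQ g (beta2pre m (hw.pi0 u)) = beta2 g (hw.pi0 u) :=
          DFunLike.congr_fun (pQ_beta2pre g) (hw.pi0 u)
        have h2 := psi_conj g hw (u : hw.H) u.2
        exact h1.trans h2.symm
  · intro i
    have himg : (fun r : Ppre g hw × Ppre g hw => pP g hw r.1) '' Rd g hw S i =
        (MonoidHom.inl (Sk hw.K) (QG g)) '' ((fun u : hw.P => (MHNN.of (u : hw.H) : Sk hw.K)) '' S ∪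
          (fun u : hw.P => kk hw.K * MHNN.of (u : hw.H) * (kk hw.K)⁻¹) '' S) := by
      ext y
      constructor
      · rintro ⟨r, (⟨u, hu, rfl⟩ | ⟨u, hu, rfl⟩), rfl⟩
        · exact ⟨_, Or.inl ⟨u, hu, rfl⟩, Prod.ext rfl (map_one (pQ g)).symm⟩
        · exact ⟨_, Or.inr ⟨u, hu, rfl⟩, Prod.ext rfl (map_one (pQ g)).symm⟩
      · rintro ⟨x, (⟨u, hu, rfl⟩ | ⟨u, hu, rfl⟩), rfl⟩
        · exact ⟨_, Or.inl ⟨u, hu, rfl⟩, Prod.ext rfl (map_one (pQ g))⟩
        · exact ⟨_, Or.inr ⟨u, hu, rfl⟩, Prod.ext rfl (map_one (pQ g))⟩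
    rw [himg, ← MonoidHom.map_closure, fpBig_closure_eq_P2 hw.K hw.P S hS]
    ext x
    rw [mem_grA, Subgroup.mem_map]
    constructor
    · rintro ⟨y, hy, rfl⟩
      exact ⟨hy, rfl⟩
    · rintro ⟨h1, h2⟩
      exact ⟨x.1, h1, Prod.ext rfl h2.symm⟩

/-- The finite set of relators. -/
def FRel (S : Set hw.P) : Set (Big g hw) :=
  (inl : Ppre g hw → Big g hw) '' ((fun z : Qpre m => ((1, z) : Ppre g hw)) '' MHNN.relators (RQ m)) ∪
    MHNN.relators (Rd g hw S)

/-- `MHNN.relators R = ⋃ i, image of R i`; `RQ m ()` is the range of a function on `Fin m`, `Rd S ()` a union of two images of `S`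
(see the end of the proof of `MHNN.isFinitelyPresented`). -/
theorem FRel_finite (S : Set hw.P) (hS : S.Finite) : (FRel g hw S).Finite := by
  unfold FRel
  refine Set.Finite.union (Set.Finite.image _ (Set.Finite.image _ ?_)) ?_
  · exact fpBig_relators_finite (RQ m) (Set.finite_range _)
  · exact fpBig_relators_finite (Rd g hw S) ((hS.image _).union (hS.image _))

end Claimed.Agent.R152.CL
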