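/-
Row 152, module CL (Clapham), helper322.  `M_G` IS FINITELY PRESENTED: the relators of `G` are consequences.  (Overview: header of `FpQ.lean`.)
-/
import Claimed.Agent.R152.CL.FpBig

set_option autoImplicit false

namespace Claimed.Agent.R152.CL

open Claimed.Agent.R152.H Claimed.Agent.R152.RE
open Monoid.Coprod

variable {G : Type*} [Group G] {m : ℕ} (g : Fin m → G)
variable (hw : Hard m (fun w => ev g w = 1))

theorem FpKill_mem_iff {B : Type*} [Group B] (N : Subgroup B) [N.Normal] (x y : B) :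
    x * y⁻¹ ∈ N ↔ QuotientGroup.mk' N x = QuotientGroup.mk' N y := by
  rw [← QuotientGroup.eq_one_iff, ← QuotientGroup.mk'_apply, map_mul, map_inv, mul_inv_eq_one]

/-- (a) In `E = Big ⧸ normalClosure FRel`: `d (of u,1) d⁻¹ = (of u, β₁pre (π₀ u))` for ALL `u ∈ P`. Both sides are homomorphisms
`P → E` of `u`; they agree on `S` (relators `Rd`), and `closure S = ⊤` (`MonoidHom.eq_of_eqOn_dense`). -/
theorem rel_d1 (S : Set hw.P) (hS : Subgroup.closure S = ⊤) (u : hw.P) :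
    (inr (FreeGroup.of ()) * inl ((MHNN.of (u : hw.H), 1) : Ppre g hw) * (inr (FreeGroup.of ()))⁻¹ *
      (inl ((MHNN.of (u : hw.H), beta1pre m (hw.pi0 u)) : Ppre g hw))⁻¹ : Big g hw)
      ∈ Subgroup.normalClosure (FRel g hw S) := by
  rw [FpKill_mem_iff]
  set q := QuotientGroup.mk' (Subgroup.normalClosure (FRel g hw S)) with hq
  let φ1 : hw.P →* Big g hw ⧸ Subgroup.normalClosure (FRel g hw S) :=
    (MulAut.conj (q (inr (FreeGroup.of ())))).toMonoidHom.comp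
      (q.comp ((inl : Ppre g hw →* Big g hw).comp
        ((MonoidHom.inl (Sk hw.K) (Qpre m)).comp ((MHNN.of : hw.H →* Sk hw.K).comp hw.P.subtype))))
  let φ2 : hw.P →* Big g hw ⧸ Subgroup.normalClosure (FRel g hw S) :=
    q.comp ((inl : Ppre g hw →* Big g hw).comp
      (MonoidHom.prod ((MHNN.of : hw.H →* Sk hw.K).comp hw.P.subtype) ((beta1pre m).comp hw.pi0)))
  have e1 : ∀ u : hw.P, φ1 u = q (inr (FreeGroup.of ()) * inl ((MHNN.of (u : hw.H), 1) : Ppre g hw) *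
      (inr (FreeGroup.of ()))⁻¹) := by
    intro u
    rw [map_mul, map_mul, map_inv q]
    rfl
  have e2 : ∀ u : hw.P, φ2 u = q (inl ((MHNN.of (u : hw.H), beta1pre m (hw.pi0 u)) : Ppre g hw)) :=
    fun u => rfl
  have h : φ1 = φ2 := by
    refine MonoidHom.eq_of_eqOn_dense hS (fun v hv => ?_)
    rw [e1, e2, hq, ← FpKill_mem_iff]
    refine Subgroup.subset_normalClosure (Or.inr ⟨(), _, Or.inl ⟨v, hv, rfl⟩, rfl⟩)
  rw [← e1, ← e2, h]

/-- (b) The same for `k u k⁻¹` and `β₂pre`. -/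
theorem rel_d2 (S : Set hw.P) (hS : Subgroup.closure S = ⊤) (u : hw.P) :
    (inr (FreeGroup.of ()) * inl ((kk hw.K * MHNN.of (u : hw.H) * (kk hw.K)⁻¹, 1) : Ppre g hw) *
      (inr (FreeGroup.of ()))⁻¹ *
      (inl ((kk hw.K * MHNN.of (u : hw.H) * (kk hw.K)⁻¹, beta2pre m (hw.pi0 u)) : Ppre g hw))⁻¹ : Big g hw)
      ∈ Subgroup.normalClosure (FRel g hw S) := by
  rw [FpKill_mem_iff]
  set q := QuotientGroup.mk' (Subgroup.normalClosure (FRel g hw S)) with hq
  let c : hw.P →* Sk hw.K :=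
    (MulAut.conj (kk hw.K)).toMonoidHom.comp ((MHNN.of : hw.H →* Sk hw.K).comp hw.P.subtype)
  let φ1 : hw.P →* Big g hw ⧸ Subgroup.normalClosure (FRel g hw S) :=
    (MulAut.conj (q (inr (FreeGroup.of ())))).toMonoidHom.comp
      (q.comp ((inl : Ppre g hw →* Big g hw).comp ((MonoidHom.inl (Sk hw.K) (Qpre m)).comp c)))
  let φ2 : hw.P →* Big g hw ⧸ Subgroup.normalClosure (FRel g hw S) :=
    q.comp ((inl : Ppre g hw →* Big g hw).comp (MonoidHom.prod c ((beta2pre m).comp hw.pi0)))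
  have e1 : ∀ u : hw.P, φ1 u = q (inr (FreeGroup.of ()) *
      inl ((kk hw.K * MHNN.of (u : hw.H) * (kk hw.K)⁻¹, 1) : Ppre g hw) *
      (inr (FreeGroup.of ()))⁻¹) := by
    intro u
    rw [map_mul, map_mul, map_inv q]
    rfl
  have e2 : ∀ u : hw.P, φ2 u = q (inl ((kk hw.K * MHNN.of (u : hw.H) * (kk hw.K)⁻¹,
      beta2pre m (hw.pi0 u)) : Ppre g hw)) := fun u => rfl
  have h : φ1 = φ2 := by
    refine MonoidHom.eq_of_eqOn_dense hS (fun v hv => ?_)
    rw [e1, e2, hq, ← FpKill_mem_iff]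
    refine Subgroup.subset_normalClosure (Or.inr ⟨(), _, Or.inr ⟨v, hv, rfl⟩, rfl⟩)
  rw [← e1, ← e2, h]

/-- (e) `h (f,1) h⁻¹ = (f,f)` modulo the relators, for ALL `f ∈ F_m` (homomorphisms of `f` agreeing on the generators;
`FreeGroup.ext_hom`). -/
theorem rel_h (S : Set hw.P) (f : FreeGroup (Fin m)) :
    (inl ((1, inr (FreeGroup.of ()) * inl (f, 1) * (inr (FreeGroup.of ()))⁻¹ * (inl (f, f))⁻¹) : Ppre g hw) :
      Big g hw) ∈ Subgroup.normalClosure (FRel g hw S) := by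
  set q := QuotientGroup.mk' (Subgroup.normalClosure (FRel g hw S)) with hq
  let J : Qpre m →* Big g hw ⧸ Subgroup.normalClosure (FRel g hw S) :=
    q.comp ((inl : Ppre g hw →* Big g hw).comp (MonoidHom.inr (Sk hw.K) (Qpre m)))
  have hJ : ∀ z : Qpre m, J z = 1 ↔ (inl ((1, z) : Ppre g hw) : Big g hw)
      ∈ Subgroup.normalClosure (FRel g hw S) := fun z => QuotientGroup.eq_one_iff _
  rw [← hJ, map_mul, map_inv, mul_inv_eq_one]
  let φ1 : FreeGroup (Fin m) →* Big g hw ⧸ Subgroup.normalClosure (FRel g hw S) :=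
    J.comp ((MulAut.conj (inr (FreeGroup.of ()) : Qpre m)).toMonoidHom.comp
      ((inl : FF m →* Qpre m).comp (MonoidHom.inl (FreeGroup (Fin m)) (FreeGroup (Fin m)))))
  let φ2 : FreeGroup (Fin m) →* Big g hw ⧸ Subgroup.normalClosure (FRel g hw S) :=
    J.comp ((inl : FF m →* Qpre m).comp
      (MonoidHom.prod (MonoidHom.id (FreeGroup (Fin m))) (MonoidHom.id (FreeGroup (Fin m)))))
  have h : φ1 = φ2 := by
    refine FreeGroup.ext_hom _ _ (fun i => ?_)
    show J (inr (FreeGroup.of ()) * inl (FreeGroup.of i, 1) * (inr (FreeGroup.of ()))⁻¹)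
      = J (inl (FreeGroup.of i, FreeGroup.of i))
    rw [← mul_inv_eq_one, ← map_inv J, ← map_mul, hJ]
    refine Subgroup.subset_normalClosure (Or.inl ⟨_, ⟨_, ⟨(), _, ⟨i, rfl⟩, rfl⟩, rfl⟩, rfl⟩)
  exact DFunLike.congr_fun h f

/-- THE KILL. Let `ev g w = 1`, `e ∈ K ∩ P` with `π₀ e = cj w` (`hw.le_pi0`). In `S_k`: `k (of e) k⁻¹ = of e` (`kk_mul_of`). Work in
`E = Big ⧸ normalClosure FRel` (`QuotientGroup.eq_one_iff`). By `rel_d1`, `rel_d2`: `(of e, β₁pre (cj w)) = (of e, β₂pre (cj w))`, so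
`(1, (v_w)⁻¹ h v_w) = (1, h)` (`beta1pre_cj`, `beta2pre_cj`). By `rel_h` with `f = mk w`: `(1, h v_w) = (1, (mk w, mk w) h)`, hence
`(1, v_w⁻¹ h v_w) = (1, (1, mk w) h)`. Therefore `(1, (1, mk w)) = 1` in `E`. -/
theorem kill (S : Set hw.P) (hS : Subgroup.closure S = ⊤) (w : Wd m) (h : ev g w = 1) :
    (inl ((1, inl (1, FreeGroup.mk w)) : Ppre g hw) : Big g hw)
      ∈ Subgroup.normalClosure (FRel g hw S) := by
  obtain ⟨e, hp, hK, he⟩ := hw.le_pi0 w h
  have hk : kk hw.K * MHNN.of e * (kk hw.K)⁻¹ = (MHNN.of e : Sk hw.K) := by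
    rw [kk_mul_of hK, mul_inv_cancel_right]
  have d1 := rel_d1 g hw S hS ⟨e, hp⟩
  have d2 := rel_d2 g hw S hS ⟨e, hp⟩
  have dh := rel_h g hw S (FreeGroup.mk w)
  rw [FpKill_mem_iff] at d1 d2
  simp only [hk, he, beta1pre_cj, beta2pre_cj] at d1 d2
  set q := QuotientGroup.mk' (Subgroup.normalClosure (FRel g hw S)) with hq
  let J : Qpre m →* Big g hw ⧸ Subgroup.normalClosure (FRel g hw S) :=
    q.comp ((inl : Ppre g hw →* Big g hw).comp (MonoidHom.inr (Sk hw.K) (Qpre m)))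
  have hJ : ∀ z : Qpre m, J z = 1 ↔ (inl ((1, z) : Ppre g hw) : Big g hw)
      ∈ Subgroup.normalClosure (FRel g hw S) := fun z => QuotientGroup.eq_one_iff _
  rw [← hJ] at dh ⊢
  -- splitting `(a, z) = (a, 1) * (1, z)`
  have split : ∀ (a : Sk hw.K) (z : Qpre m),
      q (inl ((a, z) : Ppre g hw)) = q (inl ((a, 1) : Ppre g hw)) * J z := by
    intro a z
    show _ = q (inl ((a, 1) : Ppre g hw)) * q (inl ((1, z) : Ppre g hw))
    rw [← map_mul, ← map_mul]
    simp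
  have d12 := d1.symm.trans d2
  rw [split, split _ (inr (FreeGroup.of ()))] at d12
  have k1 := mul_left_cancel d12
  rw [map_mul, map_mul, map_inv] at k1
  rw [map_mul, map_mul, map_mul, map_inv, map_inv, mul_inv_eq_one] at dh
  have k2 : (inl (FreeGroup.mk w, FreeGroup.mk w) : Qpre m)
      = inl (FreeGroup.mk w, 1) * inl (1, FreeGroup.mk w) := by
    rw [← map_mul]
    simp
  rw [k2, map_mul] at dh
  set a := J (inl (FreeGroup.mk w, 1)) with ha
  set b := J (inr (FreeGroup.of ())) with hb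
  set c := J (inl (1, FreeGroup.mk w)) with hc
  -- k1 : a⁻¹ * b * a = b ;  dh : b * a * b⁻¹ = a * c
  have k3 : b * a = a * b := by
    calc b * a = a * (a⁻¹ * b * a) := by group
      _ = a * b := by rw [k1]
  have k4 : a * c = a := by
    rw [← dh, k3, mul_inv_cancel_right]
  exact mul_left_cancel (k4.trans (mul_one a).symm)

end Claimed.Agent.R152.CL
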