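/-
Row 152, module CL (Clapham), helper322.  `M_G` IS FINITELY PRESENTED: conclusion.  (Overview: header of `FpQ.lean`.)
-/
import Claimed.Agent.R152.CL.FpKill

set_option autoImplicit false

namespace Claimed.Agent.R152.CL

open Claimed.Agent.R152.H Claimed.Agent.R152.RE
open Monoid.Coprod

variable {G : Type*} [Group G] {m : ℕ} (g : Fin m → G)
variable (hw : Hard m (fun w => ev g w = 1))

/-- The homomorphism `z ↦ inl (1, z)`, `Qpre → Big`. -/
def inlQ : Qpre m →* Big g hw :=
  (inl : Ppre g hw →* Big g hw).comp (MonoidHom.inr (Sk hw.K) (Qpre m))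

theorem inlQ_apply (z : Qpre m) : inlQ g hw z = (inl ((1, z) : Ppre g hw) : Big g hw) := rfl

/-- `inl (1, z) ∈ normalClosure FRel` for all `z ∈ ker pQ`: the preimage of `normalClosure FRel` under the homomorphism
`z ↦ inl (1, z)` is a normal subgroup of `Qpre`; by `ker_pQ` it suffices to treat `z = inl x`, `x ∈ ker pB` (`mem_ker_pB`, `kill`) and
`z ∈ relators (RQ m)` (member of `FRel`). -/
theorem inl_ker_pQ (hg : Subgroup.closure (Set.range g) = ⊤) (S : Set hw.P)
    (hS : Subgroup.closure S = ⊤) (z : Qpre m) (hz : z ∈ (pQ g).ker) :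
    (inl ((1, z) : Ppre g hw) : Big g hw) ∈ Subgroup.normalClosure (FRel g hw S) := by
  have hle : (pQ g).ker ≤ (Subgroup.normalClosure (FRel g hw S)).comap (inlQ g hw) := by
    rw [ker_pQ g hg]
    apply Subgroup.normalClosure_le_normal
    rintro y (⟨x, hx, rfl⟩ | hy)
    · obtain ⟨w, hw1, rfl⟩ := (mem_ker_pB g x).1 hx
      exact kill g hw S hS w hw1
    · apply Subgroup.subset_normalClosure
      exact Or.inl ⟨(1, y), ⟨y, hy, rfl⟩, rfl⟩
  exact hle hz

/-- `ker_Phi`; `⊆`: `x ∈ ker pP ↔ x = (1, z)`, `z ∈ ker pQ`, then `inl_ker_pQ`; `⊇`: `FRel ⊆ ker Phi` because `(1,z)`,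
`z ∈ relators (RQ m) ⊆ ker pQ`, lies in `ker pP`. -/
theorem ker_Phi_eq (hg : Subgroup.closure (Set.range g) = ⊤) (S : Set hw.P)
    (hS : Subgroup.closure S = ⊤) :
    Subgroup.normalClosure (FRel g hw S) = (Phi g hw).ker := by
  rw [ker_Phi g hw hg S hS]
  apply le_antisymm
  · apply Subgroup.normalClosure_le_normal
    rintro y (⟨x, ⟨z, hz, rfl⟩, rfl⟩ | hy)
    · apply Subgroup.subset_normalClosure
      refine Or.inl ⟨(1, z), ?_, rfl⟩
      have hzk : z ∈ (pQ g).ker := by
        rw [ker_pQ g hg]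
        exact Subgroup.subset_normalClosure (Or.inr hz)
      have hzk' : pQ g z = 1 := hzk
      show pP g hw (1, z) = 1
      simp [pP, hzk']
    · exact Subgroup.subset_normalClosure (Or.inr hy)
  · apply Subgroup.normalClosure_le_normal
    rintro y (⟨⟨a, z⟩, hx, rfl⟩ | hy)
    · have hx' : pP g hw (a, z) = 1 := hx
      simp only [pP, MonoidHom.prodMap_def, MonoidHom.prod_apply, MonoidHom.comp_apply,
        MonoidHom.coe_fst, MonoidHom.coe_snd, MonoidHom.id_apply, Prod.mk_eq_one] at hx'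
      obtain ⟨rfl, hz⟩ := hx'
      exact inl_ker_pQ g hw hg S hS z hz
    · exact Subgroup.subset_normalClosure (Or.inr hy)

/-- `M_G` IS FINITELY PRESENTED. `Big` is f.p.: `Sk_fp` (with `hw.fp`, `hw.K_fg`), `B.fp_prod` (twice) and the Mathlib instances for
`FreeGroup` of a finite type and `Monoid.Coprod`. Take a finite `S` with `closure S = ⊤` in `hw.P` (`hw.P_fg`,
`Group.fg_iff_subgroup_fg`, `Group.fg_iff`). `Group.IsFinitelyPresented.of_surjective (Phi g hw)` with `⟨FRel, FRel_finite, ker_Phi_eq⟩`. -/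
theorem MG.fp (hg : Subgroup.closure (Set.range g) = ⊤) : Group.IsFinitelyPresented (MG g hw) := by
  have := hw.fp
  have : Group.IsFinitelyPresented (Sk hw.K) := Sk_fp hw.K_fg
  have : Group.IsFinitelyPresented (FF m) := B.fp_prod
  have : Group.IsFinitelyPresented (Qpre m) := inferInstance
  have : Group.IsFinitelyPresented (Ppre g hw) := B.fp_prod
  have : Group.IsFinitelyPresented (Big g hw) := inferInstance
  obtain ⟨S, hS, hSfin⟩ := Group.fg_iff.1 ((Group.fg_iff_subgroup_fg hw.P).2 hw.P_fg)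
  exact Group.IsFinitelyPresented.of_surjective (Phi g hw) (Phi_surjective g hw hg)
    ⟨FRel g hw S, FRel_finite g hw S hSfin, ker_Phi_eq g hw hg S hS⟩

end Claimed.Agent.R152.CL
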