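/-
Row 152, module CL (Clapham), helper322.  INTERFACE OF THE MODULE.
A finitely generated group with decidable word problem embeds in a finitely presented group whose nontrivial elements are
r.e.-representable, PROVIDED the hardware (modules HW + MC) accepts the word problem of `G`.
-/
import Claimed.Agent.R152.CL.Fp

set_option autoImplicit false

namespace Claimed.Agent.R152.CL

universe u

/-- **MODULE CL.** -/
theorem clapham {G : Type u} [Group G] {m : ℕ} (g : Fin m → G)
    (hg : Subgroup.closure (Set.range g) = ⊤)
    (hWP : ComputablePred fun w : Wd m => ev g w = 1)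
    (hw : Hard m (fun w => ev g w = 1)) :
    ∃ (M : Type u) (_ : Group M) (r : ℕ) (gen : Fin r → M),
      Group.IsFinitelyPresented M ∧ Subgroup.closure (Set.range gen) = ⊤ ∧ Rep gen {x | x ≠ 1} ∧
      ∃ f : G →* M, Function.Injective f :=
  ⟨MG g hw, inferInstance, _, MG.gen g hw, MG.fp g hw hg, MG.gen_top g hw hg,
    MG.rep_ne_one g hw hg hWP, MG.emb g hw, MG.emb_injective g hw⟩

end Claimed.Agent.R152.CL
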