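/-
Row 152, module CL (Clapham), helper322.  THE ADAPTER: the hardware record `Hard m D` from helper22's group `Hs`, helper781's universal
machine `MC.hardware` and the evidence for `Hs` (record `EvHs`, to be delivered by module HW-ev).
Blocks `l : Fin D ↔ Fin m × Bool` (letters of `G`), label of the block `l` = (letter)⁻¹, label of the marker `T ξ` = `j`, the other input
letters have label `1`.  So `uel ν * T ξ * (uel ν)⁻¹ ↦ w⁻¹ j w`, `w` = the reversed word of the blocks of `ν`.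
-/
import Claimed.Agent.R152.CL.Main
import Claimed.Agent.R152.MC.Export

set_option autoImplicit false

namespace Claimed.Agent.R152.CL

open Claimed.Agent.R152.H Claimed.Agent.R152.RE Claimed.Agent.R152.HW
open scoped Pointwise

/-- WHAT MODULE HW-ev HAS TO DELIVER (for CL; no parameter). -/
structure EvHs {𝔐 : Aff} (I : Inp 𝔐) (D N : ℕ) (ξ : 𝔐.Vec) where
  /-- number of generators -/
  n : ℕ
  /-- generators -/
  gen : Fin n → 𝔐.Hs
  gen_top : Subgroup.closure (Set.range gen) = ⊤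
  rep_one : Rep gen {h | h ≠ 1}
  rep_K : Rep gen {h | h ∉ I.K}
  rep_P : Rep gen {h | h ∉ I.P D N ξ}
  rep_PK : Rep gen {h | h ∉ (I.P D N ξ : Set 𝔐.Hs) * (I.K : Set 𝔐.Hs)}

theorem wd_append {m : ℕ} (u v : Wd m) : wd (u ++ v) = wd u * wd v := by
  simp [wd]

/-- number of blocks -/
abbrev nB (m : ℕ) : ℕ := Fintype.card (Fin m × Bool)

/-- blocks ↔ letters -/
noncomputable def eB (m : ℕ) : Fin m × Bool ≃ Fin (nB m) := Fintype.equivFin _

/-- the word of a list of blocks -/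
noncomputable def wB {m : ℕ} (W : List (Fin (nB m))) : Wd m := (W.map (eB m).symm).reverse

theorem wB_cons {m : ℕ} (l : Fin (nB m)) (W : List (Fin (nB m))) :
    wB (l :: W) = wB W ++ [(eB m).symm l] := by
  simp [wB]

theorem wB_surj {m : ℕ} (w : Wd m) : ∃ W, wB W = w :=
  ⟨(w.reverse).map (eB m), by simp [wB, Function.comp_def]⟩

theorem computable_wB (m : ℕ) : Computable (wB : List (Fin (nB m)) → Wd m) :=
  (Primrec.list_reverse.comp
    (Primrec.list_map Primrec.id ((Primrec.dom_finite (eB m).symm).comp Primrec.snd).to₂)).to_comp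

section

variable {𝔐 : Aff} (I : Inp 𝔐) (m N : ℕ)

/-- the labels of the generators of `U` -/
noncomputable def lab0 : (I.code (nB m) N).UL → FreeGroup (Alp m)
  | Sum.inl l => (FreeGroup.of (some ((eB m).symm l)))⁻¹
  | Sum.inr _ => 1

/-- the blocks of a list of letters of `U` -/
def blk (L : List ((I.code (nB m) N).UL × Bool)) : List (Fin (nB m)) :=
  L.filterMap fun y => (y.1.getLeft? : Option (Fin (nB m)))

theorem blk_inl (l : Fin (nB m)) (e : Bool) (L : List ((I.code (nB m) N).UL × Bool)) :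
    blk I m N ((Sum.inl l, e) :: L) = l :: blk I m N L := rfl

theorem blk_inr (j : Fin (I.code (nB m) N).nO) (e : Bool) (L : List ((I.code (nB m) N).UL × Bool)) :
    blk I m N ((Sum.inr j, e) :: L) = blk I m N L := rfl

theorem lab0_inl (l : Fin (nB m)) :
    lab0 I m N (Sum.inl l) = (FreeGroup.of (some ((eB m).symm l)))⁻¹ := rfl

theorem lab0_inr (j : Fin (I.code (nB m) N).nO) : lab0 I m N (Sum.inr j) = 1 := rfl

theorem lift_lab0_mk (L : List ((I.code (nB m) N).UL × Bool)) (h : ∀ y ∈ L, y.2 = true) :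
    FreeGroup.lift (lab0 I m N) (FreeGroup.mk L) = (wd (wB (blk I m N L)))⁻¹ := by
  induction L with
  | nil =>
    have : wd (wB (blk I m N [])) = 1 := rfl
    rw [this, inv_one, ← FreeGroup.one_eq_mk, map_one]
  | cons y L ih =>
    have ih' := ih fun z hz => h z (List.mem_cons_of_mem _ hz)
    obtain ⟨y, e⟩ := y
    have he : e = true := h (y, e) List.mem_cons_self
    subst he
    have h1 : FreeGroup.mk ((y, true) :: L) = FreeGroup.of y * FreeGroup.mk L := by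
      rw [FreeGroup.of, FreeGroup.mul_mk]; rfl
    rw [h1, map_mul, ih', FreeGroup.lift_apply_of]
    cases y with
    | inl l =>
      have key : ∀ l' : Fin (nB m), lab0 I m N (Sum.inl l') * (wd (wB (blk I m N L)))⁻¹ =
          (wd (wB (blk I m N ((Sum.inl l', true) :: L))))⁻¹ := by
        intro l'
        rw [blk_inl I m N l' true L, wB_cons, wd_append, mul_inv_rev, lab0_inl]
        simp [wd]
      exact key l
    | inr j =>
      rw [blk_inr, lab0_inr, one_mul]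

theorem lift_lab0 (ν : FreeGroup (I.code (nB m) N).UL) (h : ∀ y ∈ ν.toWord, y.2 = true) :
    FreeGroup.lift (lab0 I m N) ν = (wd (wB (I.blocks (nB m) N ν)))⁻¹ := by
  conv_lhs => rw [← FreeGroup.mk_toWord (x := ν)]
  exact lift_lab0_mk I m N ν.toWord h

theorem P_fg (D : ℕ) (ξ : 𝔐.Vec) : (I.P D N ξ).FG := by
  rw [I.P_eq_closure D N ξ]
  exact (Subgroup.fg_iff _).2 ⟨_, rfl, (Set.finite_singleton _).union (Set.finite_range _)⟩

end

/-- **THE ADAPTER.** -/
theorem exists_hard {G : Type*} [Group G] {m : ℕ} (g : Fin m → G)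
    (hWP : ComputablePred fun w : Wd m => ev g w = 1)
    (hev : ∀ (𝔐 : Aff) (I : Inp 𝔐) (ξ : 𝔐.Vec), I.Start ξ →
      (∀ α, ∃ β, Relation.ReflTransGen (fun α β => ∃ l ∈ I.JM, 𝔐.Step l α β) α β ∧
        ∀ l ∈ I.JM, ∀ γ, ¬ 𝔐.Step l β γ) → ∀ D N, Nonempty (EvHs I D N ξ)) :
    Nonempty (Hard m (fun w => ev g w = 1)) := by
  obtain ⟨𝔐, I, ξ, hstart, hterm, hacc⟩ := MC.hardware
  have hName : REPred fun x : ℕ × List (Fin (nB m)) => ev g (wB x.2) = 1 :=
    re_comp hWP.to_re ((computable_wB m).comp Computable.snd)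
  obtain ⟨q, h1, h2⟩ := hacc (nB m) 0 (fun _ W => ev g (wB W) = 1) hName
  obtain ⟨E⟩ := hev 𝔐 I (ξ q) (hstart q) hterm (nB m) 0
  obtain ⟨π, hπT, hπU⟩ := I.exists_lift_P (nB m) 0 (hstart q) (FreeGroup.of none : FreeGroup (Alp m))
    (lab0 I m 0)
  -- the label of an accepted conjugate
  have key : ∀ (ν : FreeGroup (I.code (nB m) 0).UL) (hν : ∀ y ∈ ν.toWord, y.2 = true)
      (hmem : I.uel (nB m) 0 ν * Inp.T (ξ q) * (I.uel (nB m) 0 ν)⁻¹ ∈ I.P (nB m) 0 (ξ q)),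
      π ⟨_, hmem⟩ = cj (wB (I.blocks (nB m) 0 ν)) := by
    intro ν hν hmem
    have e : (⟨_, hmem⟩ : I.P (nB m) 0 (ξ q)) =
        ⟨I.uel (nB m) 0 ν, I.uel_mem_P (nB m) 0 (ξ q) ν⟩ * ⟨Inp.T (ξ q), I.T_mem_P (nB m) 0 (ξ q)⟩ *
          ⟨I.uel (nB m) 0 ν, I.uel_mem_P (nB m) 0 (ξ q) ν⟩⁻¹ := rfl
    rw [e, map_mul, map_mul, map_inv, hπT, hπU, lift_lab0 I m 0 ν hν, inv_inv, cj]
  have hconj : ∀ ν, I.uel (nB m) 0 ν * Inp.T (ξ q) * (I.uel (nB m) 0 ν)⁻¹ ∈ I.P (nB m) 0 (ξ q) :=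
    fun ν => mul_mem (mul_mem (I.uel_mem_P _ _ _ ν) (I.T_mem_P _ _ _)) (inv_mem (I.uel_mem_P _ _ _ ν))
  refine ⟨{ H := 𝔐.Hs, fp := Inp.Hs_isFinitelyPresented, n := E.n, gen := E.gen, gen_top := E.gen_top,
            K := I.K, P := I.P (nB m) 0 (ξ q), K_fg := I.K_fg, P_fg := P_fg I 0 (nB m) (ξ q), pi0 := π,
            pi0_le := ?_, le_pi0 := ?_, rep_one := E.rep_one, rep_K := E.rep_K, rep_P := E.rep_P,
            rep_PK := E.rep_PK }⟩
  · intro p hp hK
    have hp2 : p ∈ I.K ⊓ I.P (nB m) 0 (ξ q) := ⟨hK, hp⟩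
    rw [I.K_inf_P (nB m) 0 (hstart q)] at hp2
    -- closure induction inside `P`
    have hle : Subgroup.closure {h | ∃ ν, I.Acc (nB m) 0 (ξ q) ν ∧
        h = I.uel (nB m) 0 ν * Inp.T (ξ q) * (I.uel (nB m) 0 ν)⁻¹} ≤
        ((Subgroup.closure {x | ∃ w : Wd m, ev g w = 1 ∧ x = cj w}).comap π).map
          (I.P (nB m) 0 (ξ q)).subtype := by
      rw [Subgroup.closure_le]
      rintro _ ⟨ν, hν, rfl⟩
      refine ⟨⟨_, hconj ν⟩, ?_, rfl⟩
      rw [SetLike.mem_coe, Subgroup.mem_comap, key ν (h1 ν hν).1]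
      exact Subgroup.subset_closure ⟨_, (h1 ν hν).2, rfl⟩
    obtain ⟨p', hp', rfl⟩ := hle hp2
    exact hp'
  · intro w hw
    obtain ⟨W, rfl⟩ := wB_surj w
    obtain ⟨ν, hν, hpos, hb⟩ := h2 W hw
    have hmem : I.uel (nB m) 0 ν * Inp.T (ξ q) * (I.uel (nB m) 0 ν)⁻¹ ∈ I.K ⊓ I.P (nB m) 0 (ξ q) := by
      rw [I.K_inf_P (nB m) 0 (hstart q)]
      exact Subgroup.subset_closure ⟨ν, hν, rfl⟩
    refine ⟨_, hmem.2, hmem.1, ?_⟩
    rw [key ν hpos, hb]

end Claimed.Agent.R152.CL
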