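/-
Row 152, module CL (Clapham), helper322.  THE RECORD `EvHs` FROM THE FOUR SATURATED R.E. PREDICATES OF MODULE EV
(`evalH W ≠ 1`, `evalH W ∉ K`, `evalH W ∉ P`, `evalH W ∉ K P`; words in helper22's letters `HLet`).
-/
import Claimed.Agent.R152.CL.Inst
import Claimed.Agent.R152.HW.Guard

set_option autoImplicit false

namespace Claimed.Agent.R152.CL

open Claimed.Agent.R152.H Claimed.Agent.R152.RE Claimed.Agent.R152.HW
open scoped Pointwise

/-- A saturated r.e. language represents its set. -/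
theorem rep_of_re {Γ : Type*} [Group Γ] {n : ℕ} {gen : Fin n → Γ}
    (hgen : Subgroup.closure (Set.range gen) = ⊤) {S : Set Γ}
    (h : REPred fun w : Wd n => ev gen w ∈ S) : Rep gen S :=
  ⟨fun _ w => ev gen w ∈ S, re_comp h Computable.snd, fun _ hw => hw, fun x hx => by
    obtain ⟨w, rfl⟩ := exists_ev hgen x
    exact ⟨w, hx, rfl⟩⟩

theorem ev_mem_closure_range {Γ : Type*} [Group Γ] {n : ℕ} (gen : Fin n → Γ) (w : Wd n) :
    ev gen w ∈ Subgroup.closure (Set.range gen) := by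
  induction w with
  | nil => exact one_mem _
  | cons l w ih =>
    rw [ev_cons]
    refine mul_mem ?_ ih
    split
    · exact Subgroup.subset_closure ⟨l.1, rfl⟩
    · exact inv_mem (Subgroup.subset_closure ⟨l.1, rfl⟩)

section

variable (𝔐 : Aff)

/-- the unsigned letters of `Hs` -/
abbrev HGen : Type := Fin 𝔐.k ⊕ Fin 𝔐.nL ⊕ Unit

/-- number of generators of `Hs` -/
abbrev nH : ℕ := Fintype.card (HGen 𝔐)

/-- numbering of the generators -/
noncomputable def eH : HGen 𝔐 ≃ Fin (nH 𝔐) := Fintype.equivFin _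

/-- the generators of `Hs`, numbered -/
noncomputable def genHs : Fin (nH 𝔐) → 𝔐.Hs := fun i => Aff.genH ((eH 𝔐).symm i, true)

/-- translation of words -/
noncomputable def trH (w : Wd (nH 𝔐)) : List 𝔐.HLet := w.map fun l => ((eH 𝔐).symm l.1, l.2)

theorem computable_trH : Computable (trH 𝔐) :=
  (Primrec.list_map Primrec.id
    ((Primrec.dom_finite fun l : Fin (nH 𝔐) × Bool => (((eH 𝔐).symm l.1, l.2) : 𝔐.HLet)).comp
      Primrec.snd).to₂).to_comp

theorem ev_genHs (w : Wd (nH 𝔐)) : ev (genHs 𝔐) w = Aff.evalH (trH 𝔐 w) := by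
  induction w with
  | nil => rfl
  | cons l w ih =>
    have e : (Aff.evalH (trH 𝔐 (l :: w)) : 𝔐.Hs) =
        Aff.genH ((eH 𝔐).symm l.1, l.2) * Aff.evalH (trH 𝔐 w) := by
      simp [Aff.evalH, trH]
    rw [ev_cons, ih, e]
    congr 1
    obtain ⟨i, b⟩ := l
    cases b
    · exact (Aff.guard_genH_inv ((eH 𝔐).symm i, true)).symm
    · rfl

theorem trH_surjective : Function.Surjective (trH 𝔐) := fun W =>
  ⟨W.map fun y => (eH 𝔐 y.1, y.2), by simp [trH, Function.comp_def]⟩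

theorem genHs_top : Subgroup.closure (Set.range (genHs 𝔐)) = ⊤ := by
  rw [eq_top_iff]
  intro h _
  obtain ⟨W, rfl⟩ := Aff.evalH_surjective h
  obtain ⟨w, rfl⟩ := trH_surjective 𝔐 W
  rw [← ev_genHs]
  exact ev_mem_closure_range _ _

/-- a saturated r.e. predicate on `HLet`-words gives a representable set -/
theorem rep_genHs {S : Set 𝔐.Hs} (h : REPred fun W : List 𝔐.HLet => (Aff.evalH W : 𝔐.Hs) ∈ S) :
    Rep (genHs 𝔐) S :=
  rep_of_re (genHs_top 𝔐) ((re_comp h (computable_trH 𝔐)).of_eq fun w => by rw [ev_genHs])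

end

/-- **`EvHs` from the export of module EV.** -/
theorem EvHs.of_re {𝔐 : Aff} (I : Inp 𝔐) (D N : ℕ) (ξ : 𝔐.Vec)
    (h1 : REPred fun W : List 𝔐.HLet => (Aff.evalH W : 𝔐.Hs) ≠ 1)
    (hK : REPred fun W : List 𝔐.HLet => (Aff.evalH W : 𝔐.Hs) ∉ I.K)
    (hP : REPred fun W : List 𝔐.HLet => (Aff.evalH W : 𝔐.Hs) ∉ I.P D N ξ)
    (hKP : REPred fun W : List 𝔐.HLet =>
      ¬ ∃ k ∈ I.K, ∃ p ∈ I.P D N ξ, (Aff.evalH W : 𝔐.Hs) = k * p) :
    Nonempty (EvHs I D N ξ) := by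
  refine ⟨{ n := nH 𝔐, gen := genHs 𝔐, gen_top := genHs_top 𝔐, rep_one := rep_genHs 𝔐 h1,
            rep_K := rep_genHs 𝔐 hK, rep_P := rep_genHs 𝔐 hP, rep_PK := ?_ }⟩
  have h := (rep_genHs 𝔐 (S := {h | ¬ ∃ k ∈ I.K, ∃ p ∈ I.P D N ξ, h = k * p}) hKP).inv
  convert h using 1
  ext h
  simp only [Set.mem_ofPred_eq, Set.mem_inv, Set.mem_mul, SetLike.mem_coe, not_iff_not]
  constructor
  · rintro ⟨p, hp, k, hk, rfl⟩
    exact ⟨k⁻¹, inv_mem hk, p⁻¹, inv_mem hp, by group⟩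
  · rintro ⟨k, hk, p, hp, e⟩
    exact ⟨p⁻¹, inv_mem hp, k⁻¹, inv_mem hk, by rw [← mul_inv_rev, ← e, inv_inv]⟩

end Claimed.Agent.R152.CL
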